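import Crest.Agent.N233.PS.Ho
import Crest.Agent.N233.Defs

/-!
# Row 233, block PS (helper98): transport of fillings and hyperbolicity

`Pb` and its inverse `Qb` are Lipschitz for the sup norms on the cones, so a filling of the cone on
`X` is a filling of the cone on the flag complex `X*` (`Fill.sub`).  For a tree of chambers with
disjoint walls the group `W (X*) ⋊ F` is hyperbolic (`hyp_ps`).
-/

set_option autoImplicit false

open scoped goldenRatio Topology ENNReal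
open Finsupp Set Filter

namespace Crest.Agent.N233.PS

variable {V U : Type*} {X : Set V → Prop} {Y : Set U → Prop}

theorem Cx.card_le (hX : Cx X) {K : Finset V} (hK : X K) : K.card ≤ 4 := by
  obtain ⟨p, hp⟩ := hX.dim hK
  simpa using Finset.card_le_card_of_injOn p (t := Finset.univ) (fun _ _ => by simp) hp

theorem wt_le (k : Fin 8) : wt k ≤ 8 := by
  have h : ∀ k : Fin 8, w0 k ≤ 2 ∧ w1 k ≤ 3 := by decide
  have h0 : (w0 k : ℝ) ≤ 2 := by exact_mod_cast (h k).1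
  have h1 : (w1 k : ℝ) ≤ 3 := by exact_mod_cast (h k).2
  have h2 : (0 : ℝ) ≤ w1 k := Nat.cast_nonneg _
  have := Real.goldenRatio_lt_two
  have := Real.goldenRatio_pos
  unfold wt
  nlinarith

theorem sum_le_of_card {ι : Type*} {K : Finset ι} {n : ℕ} (hK : K.card ≤ n) {f : ι → ℝ} {c : ℝ}
    (hc : 0 ≤ c) (h : ∀ v ∈ K, f v ≤ c) : ∑ v ∈ K, f v ≤ n * c := by
  refine (Finset.sum_le_card_nsmul _ _ _ h).trans ?_
  rw [nsmul_eq_mul]
  exact mul_le_mul_of_nonneg_right (by exact_mod_cast hK) hc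

theorem sz_le (hX : Cx X) (a : PV X) : sz a.1 ≤ 32 := by
  have := sum_le_of_card (hX.card_le (car_face a)) (f := fun v => wt (a.1 v)) (c := 8)
    (by norm_num) fun v _ => wt_le _
  rw [sz_eq subset_rfl]
  norm_num at this
  exact this

theorem el_le (hX : Cx X) {K : Finset V} (hK : X K) (a : PV X) {z : V → ℝ} {ε : ℝ} (hε : 0 ≤ ε)
    (hz : ∀ v, |z v| ≤ ε) : el K a.1 z ≤ 260 * ε := by
  have h1 := sz_le hX a
  have h2 := sz_nonneg a.1
  have h3 := Real.goldenRatio_lt_two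
  have h4 := Real.goldenRatio_pos
  have := sum_le_of_card (hX.card_le hK)
    (f := fun v => (φ ^ 4 * wt (a.1 v) - (φ * sz a.1 + 1)) * z v) (c := 65 * ε)
    (by positivity) fun v _ => by
      refine (le_abs_self _).trans ?_
      rw [abs_mul]
      refine mul_le_mul (abs_le.2 ⟨?_, ?_⟩) (hz v) (abs_nonneg _) (by norm_num)
      · have := wt_nonneg (a.1 v)
        rw [phi4]
        nlinarith
      · have := wt_le (a.1 v)
        have := wt_nonneg (a.1 v)
        rw [phi4]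
        nlinarith
  refine this.trans (le_of_eq ?_)
  push_cast
  ring

theorem Ph_sub_le (hX : Cx X) {μ ν : PV X → ℝ} (hμ : μ ∈ Cone (ps X).IsClique)
    (hν : ν ∈ Cone (ps X).IsClique) {K : Finset V} (hK : X K)
    (hm : Function.support (Ph μ) ⊆ K) (hn : Function.support (Ph ν) ⊆ K) {ε δ : ℝ} (hε : 0 ≤ ε)
    (hδ : 0 ≤ δ) (e : ∀ v, |Ph μ v - Ph ν v| ≤ ε) {T : Finset (PV X)}
    (h1 : Function.support μ ⊆ T) (h2 : Function.support ν ⊆ T)
    (hs : ∑ a ∈ T, ν a - ∑ a ∈ T, μ a ≤ δ) (a : PV X) : μ a - ν a ≤ 260 * ε + 33 * δ := by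
  classical
  by_cases ha : μ a = 0
  · have := hν.1 a
    rw [ha]
    nlinarith
  obtain ⟨p, hp⟩ := hX.dim hK
  have hm : ∀ c, μ c ≠ 0 → car c ⊆ K := fun c hc v hv => hm ((Ph_ne_zero hX hμ).2 ⟨c, hc, hv⟩)
  have hn : ∀ c, ν c ≠ 0 → car c ⊆ K := fun c hc v hv => hn ((Ph_ne_zero hX hν).2 ⟨c, hc, hv⟩)
  have e1 : el K a.1 (Ph μ) =
      ∑ c ∈ T, (ht a.1 * μ c + if c = a then (φ + 1) * μ a else 0) := by
    rw [Ph_eq h1, map_sum]
    refine Finset.sum_congr rfl fun c _ => ?_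
    by_cases hc : μ c = 0
    · have : c ≠ a := fun h => ha (h ▸ hc)
      simp [hc, this]
    rw [map_smul, el_pos (Finset.coe_subset.1 (hm a ha)) (Finset.coe_subset.1 (hm c hc)),
      smul_eq_mul]
    split_ifs with h
    · rw [h, a.2.2.RR_sub]
      ring
    · rw [(hμ.2 ha hc (Ne.symm h)).2.RR_sub]
      ring
  have e2 : el K a.1 (Ph ν) ≤
      ∑ c ∈ T, (ht a.1 * ν c + if c = a then (φ + 1) * ν a else 0) := by
    rw [Ph_eq h2, map_sum]
    refine Finset.sum_le_sum fun c _ => ?_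
    by_cases hc : ν c = 0
    · by_cases h : c = a
      · simp [← h, hc]
      · simp [hc, h]
    rw [map_smul, el_pos (Finset.coe_subset.1 (hm a ha)) (Finset.coe_subset.1 (hn c hc)),
      smul_eq_mul]
    split_ifs with h
    · rw [h, a.2.2.RR_sub]
      exact le_of_eq (by ring)
    · have := loc_le hp (hm a ha) (hn c hc) a.2.2 c.2.2 fun e => h (PV.ext e.symm)
      have h3 := hν.1 c
      nlinarith
  have haT : a ∈ T := h1 ha
  have e3 := el_le hX hK a hε (z := Ph μ - Ph ν) e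
  rw [map_sub, e1] at e3
  simp only [Finset.sum_add_distrib, ← Finset.mul_sum, Finset.sum_ite_eq', haT, if_true] at e2 e3
  have h3 := ht_pos a.1
  have h4 := Real.goldenRatio_pos
  have h5 : ht a.1 ≤ 33 := by
    have := sz_le hX a
    have := Real.goldenRatio_lt_two
    unfold ht
    linarith
  have h6 : (φ + 1) * (μ a - ν a) ≤ 260 * ε + 33 * δ := by
    nlinarith [mul_le_mul_of_nonneg_left hs h3.le, mul_le_mul_of_nonneg_right h5 hδ]
  by_contra hlt
  nlinarith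

theorem Ph_lip_face (hX : Cx X) {μ ν : PV X → ℝ} (hμ : μ ∈ Cone (ps X).IsClique)
    (hν : ν ∈ Cone (ps X).IsClique) {K : Set V} (hK : X K)
    (hm : Function.support (Ph μ) ⊆ K) (hn : Function.support (Ph ν) ⊆ K) {ε : ℝ} (hε : 0 ≤ ε)
    (e : ∀ v, |Ph μ v - Ph ν v| ≤ ε) (a : PV X) : |μ a - ν a| ≤ 35000 * ε := by
  classical
  lift K to Finset V using hX.finite hK
  have hf := ((cx_ps hX).finite hμ.2).union ((cx_ps hX).finite hν.2)
  obtain ⟨T, h1, h2⟩ : ∃ T : Finset (PV X), Function.support μ ⊆ T ∧ Function.support ν ⊆ T :=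
    ⟨hf.toFinset, by simp, by simp⟩
  clear hf
  wlog h : ∑ a ∈ T, ν a ≤ ∑ a ∈ T, μ a generalizing μ ν
  · rw [abs_sub_comm]
    exact this hν hμ (fun v => by rw [abs_sub_comm]; exact e v) hn hm h2 h1 (not_le.1 h).le
  have h3 := Ph_sub_le hX hμ hν hK hm hn hε le_rfl e h1 h2 (sub_nonpos.2 h)
  have h4 : ∑ a ∈ T, μ a - ∑ a ∈ T, ν a ≤ 1040 * ε := by
    have h5 := sum_le_of_card (K := T.filter fun a => μ a ≠ 0) (n := 4)
      (card_le hX _ (hμ.2.subset fun a ha => by simpa using (Finset.mem_filter.1 ha).2))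
      (f := fun a => μ a - ν a) (c := 260 * ε) (by positivity) fun a _ => by simpa using h3 a
    rw [Finset.sum_sub_distrib, Finset.sum_filter_ne_zero] at h5
    have h6 : ∑ a ∈ T with μ a ≠ 0, ν a ≤ ∑ a ∈ T, ν a :=
      Finset.sum_le_sum_of_subset_of_nonneg (Finset.filter_subset _ _) fun a _ _ => hν.1 a
    push_cast at h5
    linarith
  have h5 := Ph_sub_le hX hν hμ hK hn hm hε (by positivity)
    (fun v => by rw [abs_sub_comm]; exact e v) h2 h1 h4 a
  have h6 := h3 a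
  rw [abs_le]
  constructor <;> linarith

theorem Ph_lip (hX : Cx X) (h0 : X ∅) {μ ν : PV X → ℝ} (hμ : μ ∈ Cone (ps X).IsClique)
    (hν : ν ∈ Cone (ps X).IsClique) {ε : ℝ} (hε : 0 ≤ ε)
    (e : ∀ v, |Ph μ v - Ph ν v| ≤ ε) (a : PV X) : |μ a - ν a| ≤ 70000 * ε := by
  classical
  have hx := Ph_mem hX h0 hμ
  have hy := Ph_mem hX h0 hν
  have s1 : (Function.support fun v => if Ph ν v = 0 then 0 else Ph μ v) ⊆
      Function.support (Ph μ) := fun v hv h => hv (by simp [h])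
  have s2 : (Function.support fun v => if Ph ν v = 0 then 0 else Ph μ v) ⊆
      Function.support (Ph ν) := fun v hv h => hv (by simp [h])
  obtain ⟨ξ, hξ, e'⟩ := Ph_surjOn hX (show (fun v => if Ph ν v = 0 then 0 else Ph μ v) ∈ Cone X from
    ⟨fun v => by beta_reduce; split_ifs; exacts [le_rfl, hx.1 v], hX.down s1 hx.2⟩)
  have h1 := Ph_lip_face hX hμ hξ hx.2 subset_rfl (e' ▸ s1) hε (fun v => by
    rw [e']
    by_cases h : Ph ν v = 0
    · simpa [h] using e v
    · simpa [h] using hε) a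
  have h2 := Ph_lip_face hX hξ hν hy.2 (e' ▸ s2) subset_rfl hε (fun v => by
    rw [e']
    by_cases h : Ph ν v = 0
    · simpa [h] using hε
    · simpa [h] using e v) a
  have := abs_sub_le (μ a) (ξ a) (ν a)
  linarith

/-- the inverse of `Pb` is Lipschitz for the sup norms -/
theorem Qb_lip (hX : Cx X) (h0 : X ∅) {x y : V → ℝ} (hx : x ∈ Cone X) (hy : y ∈ Cone X) {ε : ℝ}
    (hε : 0 ≤ ε) (e : ∀ v, |x v - y v| ≤ ε) (a : PV X) :
    |Qb X x a - Qb X y a| ≤ 2240000 * ε := by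
  have h := Ph_lip hX h0 (div_mem (Qb_mem hX h0 hx)) (div_mem (Qb_mem hX h0 hy)) hε
    (by rw [← Pb_eq_Ph, ← Pb_eq_Ph, Pb_Qb hX h0 hx, Pb_Qb hX h0 hy]; exact e) a
  rw [← sub_div, abs_div, abs_of_pos (sz_pos a), div_le_iff₀ (sz_pos a)] at h
  have := sz_le hX a
  nlinarith

theorem bar_le_one (a : PV X) (v : V) : bar a v ≤ 1 := by
  classical
  rw [← sum_bar (a := a) (K := insert v a.1.support) (by simp [car])]
  exact Finset.single_le_sum (fun w _ => bar_nonneg a w) (Finset.mem_insert_self _ _)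

/-- `Pb` is Lipschitz for the sup norms -/
theorem Pb_lip (hX : Cx X) {μ ν : PV X → ℝ} (hμ : μ ∈ Cone (ps X).IsClique)
    (hν : ν ∈ Cone (ps X).IsClique) {ε : ℝ} (hε : 0 ≤ ε) (e : ∀ a, |μ a - ν a| ≤ ε) (v : V) :
    |Pb μ v - Pb ν v| ≤ 8 * ε := by
  classical
  have h1 := (cx_ps hX).finite hμ.2
  have h2 := (cx_ps hX).finite hν.2
  rw [Pb_eq (T := h1.toFinset ∪ h2.toFinset) (by simp),
    Pb_eq (μ := ν) (T := h1.toFinset ∪ h2.toFinset) (by simp), ← Finset.sum_sub_distrib]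
  refine (Finset.abs_sum_le_sum_abs _ _).trans ((sum_le_of_card (n := 8) ?_ hε fun a _ => ?_).trans
    (by norm_num))
  · have := card_le hX h1.toFinset (by simpa using hμ.2)
    have := card_le hX h2.toFinset (by simpa using hν.2)
    have := Finset.card_union_le h1.toFinset h2.toFinset
    omega
  · rw [← sub_mul, abs_mul, abs_of_nonneg (bar_nonneg a v)]
    exact (mul_le_of_le_one_right (abs_nonneg _) (bar_le_one a v)).trans (e a)

theorem zero_mem_cone (h0 : X ∅) : (0 : V → ℝ) ∈ Cone X := ⟨fun _ => le_rfl, by simpa using h0⟩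

theorem smul_mem_cone {r : ℝ} (hr : 0 < r) {x : V → ℝ} (hx : x ∈ Cone X) : r • x ∈ Cone X := by
  have := scale_mem (r := fun _ => r) (fun _ => hr) hx
  rwa [show (fun a => x a * r) = r • x from funext fun a => mul_comm _ _] at this

theorem Qb_zero (hX : Cx X) (h0 : X ∅) : Qb X 0 = 0 := by
  rw [← Pb_zero (X := X), Qb_Pb hX h0 (zero_mem_cone (by simp))]

theorem Qb_smul (hX : Cx X) (h0 : X ∅) {r : ℝ} (hr : 0 < r) {x : V → ℝ} (hx : x ∈ Cone X) :
    Qb X (r • x) = r • Qb X x := by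
  rw [← Qb_Pb hX h0 (smul_mem_cone hr (Qb_mem hX h0 hx)), Pb_smul, Pb_Qb hX h0 hx]

theorem Qb_iso (hX : Cx X) (h0 : X ∅) (hY : Cx Y) (e : V ≃ U) (h : Nd X Y e)
    (h' : Nd Y X e.symm) {y : U → ℝ} (hy : y ∈ Cone Y) : Qb Y y ∘ pm h = Qb X (y ∘ e) := by
  have hY0 : Y ∅ := hY.down (empty_subset _) hy.2
  have h1 := Qb_mem hY hY0 hy
  have h2 : Qb Y y ∘ pm h ∈ Cone (ps X).IsClique := ⟨fun a => h1.1 _, fun a ha b hb hne =>
    (pmIso e h h').map_rel_iff.1 (h1.2 ha hb fun e' => hne ((pmIso e h h').injective e'))⟩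
  rw [← Qb_Pb hX h0 h2, Pb_iso e h h', Pb_Qb hY hY0 hy]

/-- the support of `Qb x` consists of vertices carried by the support of `x` -/
theorem Qb_support_sub (hX : Cx X) (h0 : X ∅) {x : V → ℝ} (hx : x ∈ Cone X) {A : Set V} :
    Function.support (Qb X x) ⊆ {a | car a ⊆ A} ↔ Function.support x ⊆ A := by
  rw [← Pb_support_sub hX (Qb_mem hX h0 hx), Pb_Qb hX h0 hx]

/-! ### group actions -/

section act

variable {F : Type*} [Group F] (σ : F →* Equiv.Perm V) (hσ : ∀ f s, X s → X (σ f '' s))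

include hσ in
theorem nd_act (f : F) : Nd X X (σ f) := fun s hs => ⟨(σ f).injective.injOn, hσ f s hs⟩

include hσ in
theorem nd_act' (f : F) : Nd X X (σ f).symm := by
  have := nd_act σ hσ f⁻¹
  rwa [map_inv] at this

/-- the induced action on the subdivision -/
noncomputable def psHom : F →* (ps X ≃g ps X) :=
  MonoidHom.mk' (fun f => pmIso (σ f) (nd_act σ hσ f) (nd_act' σ hσ f)) fun f g =>
    RelIso.ext fun a => (pm_congr (nd_act σ hσ (f * g)) ((nd_act σ hσ f).comp (nd_act σ hσ g))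
      fun v _ => by simp).trans (pm_comp (nd_act σ hσ f) (nd_act σ hσ g) a)

theorem psHom_apply (f : F) (a : PV X) : psHom σ hσ f a = pm (nd_act σ hσ f) a := rfl

theorem car_psHom (f : F) (a : PV X) : car (psHom σ hσ f a) = σ f '' car a :=
  car_pm (nd_act σ hσ f) a

end act

/-! ### the sup norm -/

section li

variable {S : Type} {X : Set S → Prop}

open Classical in
/-- a bounded function as an element of `LI` -/
noncomputable def toLI (f : S → ℝ) : LI S := if h : Memℓp f ∞ then ⟨f, h⟩ else 0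

theorem coe_toLI {f : S → ℝ} (h : (Function.support f).Finite) : ⇑(toLI f) = f := by
  have : Memℓp f ∞ := (memℓp_zero h).of_exponent_ge zero_le
  rw [toLI, dif_pos this]

theorem toLI_coe (y : LI S) : toLI y = y := by
  rw [toLI, dif_pos (lp.memℓp y)]

theorem mem_cone_iff {y : LI S} : y ∈ N233.Cone X ↔ ⇑y ∈ Cone X := Iff.rfl

theorem mem_cone_fl (hX : Cx X) {μ : LI (PV X)} :
    μ ∈ N233.Cone (Fl (ps X)) ↔ ⇑μ ∈ Cone (ps X).IsClique :=
  ⟨fun h => ⟨h.1, h.2.2⟩, fun h => ⟨h.1, (cx_ps hX).finite h.2, h.2⟩⟩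

theorem abs_sub_le_norm (y z : LI S) (s : S) : |y s - z s| ≤ ‖y - z‖ := by
  simpa using lp.norm_apply_le_norm ENNReal.top_ne_zero (y - z) s

theorem norm_sub_le_of {y z : LI S} {C : ℝ} (hC : 0 ≤ C) (h : ∀ s, |y s - z s| ≤ C) :
    ‖y - z‖ ≤ C :=
  lp.norm_le_of_forall_le hC fun s => by simpa using h s

/-- `Cone X → Cone X*` -/
noncomputable def up (X : Set S → Prop) (y : LI S) : LI (PV X) := toLI ((8 : ℝ) • Qb X y)

/-- `Cone X* → Cone X` -/
noncomputable def dn (μ : LI (PV X)) : LI S := toLI ((8 : ℝ)⁻¹ • Pb μ)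

theorem coe_up (hX : Cx X) {y : LI S} (hy : y ∈ N233.Cone X) : ⇑(up X y) = (8 : ℝ) • Qb X y :=
  coe_toLI ((cx_ps hX).finite (smul_mem_cone (by norm_num)
    (Qb_mem hX (hX.down (empty_subset _) hy.2) hy)).2)

theorem coe_dn (hX : Cx X) (h0 : X ∅) {μ : LI (PV X)} (hμ : μ ∈ N233.Cone (Fl (ps X))) :
    ⇑(dn μ) = (8 : ℝ)⁻¹ • Pb μ :=
  coe_toLI (hX.finite (smul_mem_cone (by norm_num)
    ((Pb_bijOn hX h0).mapsTo ((mem_cone_fl hX).1 hμ))).2)

theorem up_mem (hX : Cx X) {y : LI S} (hy : y ∈ N233.Cone X) : up X y ∈ N233.Cone (Fl (ps X)) := by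
  rw [mem_cone_fl hX, coe_up hX hy]
  exact smul_mem_cone (by norm_num) (Qb_mem hX (hX.down (empty_subset _) hy.2) hy)

theorem dn_mem (hX : Cx X) (h0 : X ∅) {μ : LI (PV X)} (hμ : μ ∈ N233.Cone (Fl (ps X))) :
    dn μ ∈ N233.Cone X := by
  rw [mem_cone_iff, coe_dn hX h0 hμ]
  exact smul_mem_cone (by norm_num) ((Pb_bijOn hX h0).mapsTo ((mem_cone_fl hX).1 hμ))

theorem dn_up (hX : Cx X) {y : LI S} (hy : y ∈ N233.Cone X) : dn (up X y) = y := by
  have h0 := hX.down (empty_subset _) hy.2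
  rw [dn, coe_up hX hy, Pb_smul, Pb_Qb hX h0 hy, inv_smul_smul₀ (by norm_num), toLI_coe]

theorem up_dn (hX : Cx X) (h0 : X ∅) {μ : LI (PV X)} (hμ : μ ∈ N233.Cone (Fl (ps X))) :
    up X (dn μ) = μ := by
  rw [up, coe_dn hX h0 hμ, ← Pb_smul, Qb_Pb hX h0 (smul_mem_cone (by norm_num)
    ((mem_cone_fl hX).1 hμ)), smul_inv_smul₀ (by norm_num), toLI_coe]

theorem up_zero (hX : Cx X) (h0 : X ∅) : up X 0 = 0 := by
  rw [up, lp.coeFn_zero, Qb_zero hX h0, smul_zero]
  exact toLI_coe 0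

theorem dn_zero : dn (0 : LI (PV X)) = 0 := by
  rw [dn, lp.coeFn_zero, Pb_zero, smul_zero]
  exact toLI_coe 0

theorem up_eq_zero (hX : Cx X) {y : LI S} (hy : y ∈ N233.Cone X) : up X y = 0 ↔ y = 0 :=
  ⟨fun h => by rw [← dn_up hX hy, h, dn_zero], fun h => by
    rw [h, up_zero hX (hX.down (empty_subset _) hy.2)]⟩

theorem dn_eq_zero (hX : Cx X) (h0 : X ∅) {μ : LI (PV X)} (hμ : μ ∈ N233.Cone (Fl (ps X))) :
    dn μ = 0 ↔ μ = 0 :=
  ⟨fun h => by rw [← up_dn hX h0 hμ, h, up_zero hX h0], fun h => by rw [h, dn_zero]⟩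

theorem up_smul (hX : Cx X) {r : ℝ} (hr : 0 < r) {y : LI S} (hy : y ∈ N233.Cone X) :
    up X (r • y) = r • up X y := by
  have h0 := hX.down (empty_subset _) hy.2
  rw [up, lp.coeFn_smul, Qb_smul hX h0 hr hy, smul_comm, ← coe_up hX hy, ← lp.coeFn_smul, toLI_coe]

theorem norm_up_sub (hX : Cx X) {y z : LI S} (hy : y ∈ N233.Cone X) (hz : z ∈ N233.Cone X) :
    ‖up X y - up X z‖ ≤ 17920000 * ‖y - z‖ := by
  refine norm_sub_le_of (by positivity) fun a => ?_
  have := Qb_lip hX (hX.down (empty_subset _) hy.2) hy hz (norm_nonneg _) (abs_sub_le_norm y z) a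
  rw [coe_up hX hy, coe_up hX hz, Pi.smul_apply, Pi.smul_apply, smul_eq_mul, smul_eq_mul,
    ← mul_sub, abs_mul, abs_of_pos (by norm_num : (0 : ℝ) < 8)]
  linarith

theorem norm_dn_sub (hX : Cx X) (h0 : X ∅) {μ ν : LI (PV X)} (hμ : μ ∈ N233.Cone (Fl (ps X)))
    (hν : ν ∈ N233.Cone (Fl (ps X))) : ‖dn μ - dn ν‖ ≤ ‖μ - ν‖ := by
  refine norm_sub_le_of (norm_nonneg _) fun v => ?_
  have := Pb_lip hX ((mem_cone_fl hX).1 hμ) ((mem_cone_fl hX).1 hν) (norm_nonneg _)
    (abs_sub_le_norm μ ν) v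
  rw [coe_dn hX h0 hμ, coe_dn hX h0 hν, Pi.smul_apply, Pi.smul_apply, smul_eq_mul, smul_eq_mul,
    ← mul_sub, abs_mul, abs_of_pos (by norm_num : (0 : ℝ) < 8⁻¹)]
  linarith

theorem continuousOn_up (hX : Cx X) : ContinuousOn (up X) (N233.Cone X) :=
  (LipschitzOnWith.of_dist_le_mul (K := 17920000) fun y hy z hz => by
    simpa [dist_eq_norm] using norm_up_sub hX hy hz).continuousOn

theorem continuousOn_dn (hX : Cx X) (h0 : X ∅) :
    ContinuousOn (dn (X := X)) (N233.Cone (Fl (ps X))) :=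
  (LipschitzOnWith.of_dist_le_mul (K := 1) fun y hy z hz => by
    simpa [dist_eq_norm] using norm_dn_sub hX h0 hy hz).continuousOn

theorem norm_le_up (hX : Cx X) {y : LI S} (hy : y ∈ N233.Cone X) : ‖y‖ ≤ ‖up X y‖ := by
  have h0 := hX.down (empty_subset _) hy.2
  have := norm_dn_sub hX h0 (up_mem hX hy) (ν := 0) ((mem_cone_fl hX).2 (zero_mem_cone (by simp)))
  rwa [dn_up hX hy, dn_zero, sub_zero, sub_zero] at this

theorem up_support_sub (hX : Cx X) {y : LI S} (hy : y ∈ N233.Cone X) {A : Set S} :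
    (∀ a, up X y a ≠ 0 → car a ⊆ A) ↔ ∀ s, y s ≠ 0 → s ∈ A := by
  have := Qb_support_sub hX (hX.down (empty_subset _) hy.2) hy (A := A)
  rw [coe_up hX hy]
  simpa [subset_def] using this

/-- `up` commutes with isomorphisms of complexes -/
theorem up_iso {S' : Type} {Y : Set S' → Prop} (hX : Cx X) (hY : Cx Y) (e : S ≃ S') (h : Nd X Y e)
    (h' : Nd Y X e.symm) {x : LI S} {y : LI S'} (hx : x ∈ N233.Cone X) (hy : y ∈ N233.Cone Y)
    (hxy : ∀ s, y (e s) = x s) (a : PV X) : up Y y (pm h a) = up X x a := by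
  have := congrFun (Qb_iso hX (hX.down (empty_subset _) hx.2) hY e h h' hy) a
  rw [show ⇑y ∘ e = x from funext hxy] at this
  rw [coe_up hX hx, coe_up hY hy, Pi.smul_apply, Pi.smul_apply, ← this]
  rfl

variable {F T : Type} [Group F] [TopologicalSpace T] [MulAction F T]

/-- **a filling of the cone on `X` is a filling of the cone on the flag complex `X*`** -/
noncomputable def _root_.Crest.Agent.N233.Fill.sub (hX : Cx X) (σ : F →* Equiv.Perm S)
    (hσ : ∀ f s, X s → X (σ f '' s)) (P : Fill X F (fun f s => σ f s) T) :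
    Fill (Fl (ps X)) F (fun f a => psHom σ hσ f a) T :=
  have h0 : X ∅ := hX.down (empty_subset _) (P.p_mem (Classical.arbitrary _)).2
  { X := P.X
    free := P.free
    p := ⟨fun x => up X (P.p x), (continuousOn_up hX).comp_continuous P.p.continuous P.p_mem⟩
    p_mem := fun x => up_mem hX (P.p_mem x)
    p_smul := fun f x a => up_iso hX hX (σ f) (nd_act σ hσ f) (nd_act' σ hσ f) (P.p_mem x)
      (P.p_mem _) (P.p_smul f x) a
    j := fun μ => P.j (dn μ)
    j_cont := P.j_cont.comp ((continuousOn_dn hX h0).mono sdiff_subset) fun μ hμ =>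
      ⟨dn_mem hX h0 hμ.1, fun h => hμ.2 ((dn_eq_zero hX h0 hμ.1).1 h)⟩
    pj := fun μ hμ hne => by
      change up X (P.p (P.j (dn μ))) = μ
      rw [P.pj _ (dn_mem hX h0 hμ) fun h => hne ((dn_eq_zero hX h0 hμ).1 h), up_dn hX h0 hμ]
    jp := fun x hx => by
      change P.j (dn (up X (P.p x))) = x
      rw [dn_up hX (P.p_mem x), P.jp x fun h => hx ((up_eq_zero hX (P.p_mem x)).2 h)]
    cpt := P.cpt.imp fun K hK => ⟨hK.1, fun x hx => hK.2 x ((norm_le_up hX (P.p_mem x)).trans hx)⟩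
    a := P.a
    b := P.b
    h := P.h
    a_smul := P.a_smul
    b_smul := P.b_smul
    h_smul := P.h_smul
    h_zero := P.h_zero
    h_one := P.h_one }

end li

/-! ### trees of chambers -/

section mir

open Hyp

variable {S N Ed : Type} {X : Set S → Prop} {src tgt : Ed → N}

/-- the chambers containing a vertex of the subdivision -/
def Ts (T : S → Set N) (a : PV X) : Set N := {t | ∀ s ∈ car a, t ∈ T s}

variable {T : S → Set N}

theorem wl_Ts {e : Ed} {a : PV X} :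
    Wl src tgt (Ts T) e a ↔ car a ⊆ {s | Wl src tgt T e s} :=
  ⟨fun h s hs => ⟨h.1 s hs, h.2 s hs⟩, fun h => ⟨fun _ hs => (h hs).1, fun _ hs => (h hs).2⟩⟩

theorem mir_ps (hc : Coc src tgt)
    (hn : ∀ t t', Relation.ReflTransGen (fun u v => ∃ e, End src tgt e u v) t t')
    (h1 : ∀ s, X s → ∃ t, ∀ v ∈ s, t ∈ T v)
    (h2 : ∀ s, ∀ t ∈ T s, ∀ t' ∈ T s, t = t' ∨ ∃ e, End src tgt e t t') :
    Mir (ps X) src tgt (Ts T) where
  coc := hc
  conn := hn
  Tconn a t ht t' ht' := by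
    obtain ⟨v, hv⟩ := car_nonempty a
    rcases h2 v t (ht v hv) t' (ht' v hv) with rfl | ⟨e, he⟩
    · rfl
    · refine .single ⟨e, he, ?_⟩
      rcases he with ⟨rfl, rfl⟩ | ⟨rfl, rfl⟩
      exacts [⟨ht, ht'⟩, ⟨ht', ht⟩]
  Tne a := h1 _ (car_face a)
  Tadj a b h := (h1 _ h.1).imp fun _ ht => ⟨fun s hs => ht s (Or.inl hs), fun s hs => ht s (Or.inr hs)⟩

theorem noSq_cone_ps (hX : Cx X) (h3 : ∀ e e' s, Wl src tgt T e s → Wl src tgt T e' s → e = e') :
    NoSq (cone (ps X) src tgt (Ts T)) := by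
  refine noSq_cone (noSq_ps hX) (fun e e' a _ hne h h' => ?_) fun e a b d hb hd hne hab had => ?_
  · obtain ⟨v, hv⟩ := car_nonempty a
    exact absurd (h3 e e' v (wl_Ts.1 h hv) (wl_Ts.1 h' hv)) hne
  · rw [or_iff_not_imp_left]
    exact fun hbd => wl_Ts.2 (two_convex hX (wl_Ts.1 hb) (wl_Ts.1 hd) hne hbd hab had)

open Crest.GroupTheory Crest.Agent.N255.Ra in
/-- **`W (X*) ⋊ F` is hyperbolic** for a locally finite cocompact tree of chambers with disjoint
walls: every face lies in a chamber, the chambers containing a vertex are equal or adjacent -/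
theorem hyp_ps (hX : Cx X) (hc : Coc src tgt)
    (hn : ∀ t t', Relation.ReflTransGen (fun u v => ∃ e, End src tgt e u v) t t')
    (h1 : ∀ s, X s → ∃ t, ∀ v ∈ s, t ∈ T v)
    (h2 : ∀ s, ∀ t ∈ T s, ∀ t' ∈ T s, t = t' ∨ ∃ e, End src tgt e t t')
    (h3 : ∀ e e' s, Wl src tgt T e s → Wl src tgt T e' s → e = e')
    {F : Type} [Group F] [MulAction F N] (σ : F →* Equiv.Perm S)
    (hσ : ∀ f s, X s → X (σ f '' s)) (hT : ∀ (g : F) s t, t ∈ T s → g • t ∈ T (σ g s))
    (hE : ∀ (g : F) e, ∃ e', End src tgt e' (g • src e) (g • tgt e))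
    (l1 : ∀ t, {s | t ∈ T s}.Finite) (l2 : ∀ t, {t' | ∃ e, End src tgt e t t'}.Finite)
    {B : Set N} (hB : B.Finite) (hD : ∀ t, ∃ g : F, g • t ∈ B) (o : N)
    (hs : {g : F | g • o = o}.Finite) :
    IsHyperbolicGroup (W (ps X) ⋊[autHom (psHom σ hσ)] F) := by
  refine (mir_ps hc hn h1 h2).hyp (noSq_cone_ps hX h3) (clB_ps hX) _ (fun g a t ht s hs => ?_) hE
    (fun t => finite_car_sub (l1 t)) l2 hB hD o hs
  rw [car_psHom] at hs
  obtain ⟨v, hv, rfl⟩ := hs
  exact hT g v t (ht v hv)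

end mir

end Crest.Agent.N233.PS
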