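import Crest.Agent.N233.PS.Blk

/-!
# Row 233, block PS (helper98): codes, the relation `RR`, the facts about the block

A code is a finitely supported function `V →₀ Fin 8`; `wt` turns a digit into a real coordinate.
`Vx a`: `a` is a vertex; `Ad a b`: `a` and `b` are joined by an edge.  Everything is invariant
under maps that are injective on the supports, so the finite checks of `Blk` hold for codes whose
supports lie in a common set of at most four points.
-/

set_option autoImplicit false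

open scoped goldenRatio
open Finsupp Set

namespace Crest.Agent.N233.PS

variable {V U : Type*}

/-- the real coordinate of a digit -/
noncomputable def wt (k : Fin 8) : ℝ := w0 k + w1 k * φ

@[simp] theorem wt_zero : wt 0 = 0 := by
  have h0 : w0 (0 : Fin 8) = 0 := by decide
  have h1 : w1 (0 : Fin 8) = 0 := by decide
  rw [wt, h0, h1]
  simp

theorem one_le_wt {k : Fin 8} (hk : k ≠ 0) : 1 ≤ wt k := by
  have h : ∀ k : Fin 8, k ≠ 0 → 1 ≤ w0 k + w1 k := by decide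
  have h1 : (1 : ℝ) ≤ w0 k + w1 k := by exact_mod_cast h k hk
  have h2 : (0 : ℝ) ≤ w1 k := Nat.cast_nonneg _
  have := Real.one_lt_goldenRatio
  unfold wt
  nlinarith

theorem wt_nonneg (k : Fin 8) : 0 ≤ wt k := by
  by_cases hk : k = 0
  · simp [hk]
  · linarith [one_le_wt hk]

theorem wt_eq_zero {k : Fin 8} : wt k = 0 ↔ k = 0 :=
  ⟨fun h => by_contra fun hk => by linarith [one_le_wt hk], fun h => by simp [h]⟩

theorem wt_one : wt 1 = 1 := by
  have h0 : w0 (1 : Fin 8) = 1 := by decide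
  have h1 : w1 (1 : Fin 8) = 0 := by decide
  rw [wt, h0, h1]
  simp

theorem wt_mul (k l : Fin 8) : wt k * wt l = e0 k l + e1 k l * φ := by
  have := Real.goldenRatio_sq
  simp only [wt, e0, e1]
  push_cast
  linear_combination (w1 k * w1 l : ℝ) * this

/-- the sum of the coordinates -/
noncomputable def sz (a : V →₀ Fin 8) : ℝ := a.sum fun _ k => wt k

/-- the scalar product of the coordinate vectors -/
noncomputable def dt (a b : V →₀ Fin 8) : ℝ := a.sum fun v k => wt k * wt (b v)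

/-- `2 φ⁴` times the scalar product of the two vertices of the 600-cell -/
noncomputable def RR (a b : V →₀ Fin 8) : ℝ :=
  φ ^ 4 * dt a b + 4 * φ ^ 2 - φ * sz a * sz b - sz a - sz b

/-- the code is a vertex of the block -/
def Vx (a : V →₀ Fin 8) : Prop := RR a a = 2 * φ ^ 4

/-- the two codes are joined by an edge of the block -/
def Ad (a b : V →₀ Fin 8) : Prop := RR a b = φ ^ 5

theorem sz_eq {a : V →₀ Fin 8} {s : Finset V} (h : a.support ⊆ s) :
    sz a = ∑ v ∈ s, wt (a v) :=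
  Finsupp.sum_of_support_subset a h _ (by simp)

theorem dt_eq {a : V →₀ Fin 8} (b : V →₀ Fin 8) {s : Finset V} (h : a.support ⊆ s) :
    dt a b = ∑ v ∈ s, wt (a v) * wt (b v) :=
  Finsupp.sum_of_support_subset a h _ (by simp)

theorem sz_nonneg (a : V →₀ Fin 8) : 0 ≤ sz a :=
  Finset.sum_nonneg fun _ _ => wt_nonneg _

theorem dt_comm (a b : V →₀ Fin 8) : dt a b = dt b a := by
  classical
  rw [dt_eq b (Finset.subset_union_left (s₂ := b.support)),
    dt_eq a (Finset.subset_union_right (s₁ := a.support))]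
  exact Finset.sum_congr rfl fun _ _ => mul_comm _ _

theorem RR_comm (a b : V →₀ Fin 8) : RR a b = RR b a := by
  simp only [RR, dt_comm a b]
  ring

theorem Ad.symm {a b : V →₀ Fin 8} (h : Ad a b) : Ad b a := by
  unfold Ad at *
  rwa [RR_comm]

theorem phi4 : φ ^ 4 = 3 * φ + 2 := by
  have := Real.goldenRatio_sq
  linear_combination (φ ^ 2 + φ + 2) * this

theorem phi5 : φ ^ 5 = 5 * φ + 3 := by
  have := Real.goldenRatio_sq
  linear_combination (φ ^ 3 + φ ^ 2 + 2 * φ + 3) * this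

theorem Vx.not_ad {a : V →₀ Fin 8} (h : Vx a) : ¬ Ad a a := by
  unfold Vx Ad at *
  rw [h, phi4, phi5]
  have := Real.goldenRatio_pos
  intro h
  linarith

theorem Vx.ne_zero {a : V →₀ Fin 8} (h : Vx a) : a ≠ 0 := by
  rintro rfl
  have := Real.one_lt_goldenRatio
  simp only [Vx, RR, sz, dt, Finsupp.sum_zero_index, phi4, Real.goldenRatio_sq] at h
  linarith

theorem vx_single (v : V) : Vx (single v (1 : Fin 8)) := by
  have h1 : sz (single v (1 : Fin 8)) = 1 := by simp [sz, wt_one]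
  have h2 : dt (single v (1 : Fin 8)) (single v 1) = 1 := by simp [dt, wt_one]
  rw [Vx, RR, h1, h2, phi4, Real.goldenRatio_sq]
  ring

/-! ### naturality -/

theorem sz_map {f : V → U} {a : V →₀ Fin 8} (h : InjOn f a.support) :
    sz (mapDomain f a) = sz a := by
  classical
  rw [sz_eq (mapDomain_support (f := f) (s := a)), Finset.sum_image h, sz_eq subset_rfl]
  exact Finset.sum_congr rfl fun v hv => by rw [mapDomain_apply' _ a subset_rfl h hv]

theorem dt_map {f : V → U} {a b : V →₀ Fin 8} {S : Set V} (h : InjOn f S)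
    (ha : ↑a.support ⊆ S) (hb : ↑b.support ⊆ S) :
    dt (mapDomain f a) (mapDomain f b) = dt a b := by
  classical
  rw [dt_eq _ (mapDomain_support (f := f) (s := a)), Finset.sum_image (h.mono ha),
    dt_eq _ subset_rfl]
  exact Finset.sum_congr rfl fun v hv => by
    rw [mapDomain_apply' S a ha h (ha hv), mapDomain_apply' S b hb h (ha hv)]

theorem RR_map {f : V → U} {a b : V →₀ Fin 8} {S : Set V} (h : InjOn f S)
    (ha : ↑a.support ⊆ S) (hb : ↑b.support ⊆ S) :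
    RR (mapDomain f a) (mapDomain f b) = RR a b := by
  simp only [RR, dt_map h ha hb, sz_map (h.mono ha), sz_map (h.mono hb)]

theorem vx_map {f : V → U} {a : V →₀ Fin 8} (h : InjOn f a.support) :
    Vx (mapDomain f a) ↔ Vx a := by
  simp only [Vx, RR_map h subset_rfl subset_rfl]

theorem ad_map {f : V → U} {a b : V →₀ Fin 8} {S : Set V} (h : InjOn f S)
    (ha : ↑a.support ⊆ S) (hb : ↑b.support ⊆ S) :
    Ad (mapDomain f a) (mapDomain f b) ↔ Ad a b := by
  simp only [Ad, RR_map h ha hb]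

theorem supp_map {f : V → U} {a : V →₀ Fin 8} (h : InjOn f a.support) :
    (↑(mapDomain f a).support : Set U) = f '' a.support := by
  classical
  rw [mapDomain_support_of_injOn a h, Finset.coe_image]

theorem map_inj {f : V → U} {a b : V →₀ Fin 8} {S : Set V} (h : InjOn f S)
    (ha : ↑a.support ⊆ S) (hb : ↑b.support ⊆ S) (e : mapDomain f a = mapDomain f b) : a = b :=
  mapDomain_injOn S h ha hb e

theorem supp_sub_of_map {f : V → U} {a : V →₀ Fin 8} {S T : Set V} (h : InjOn f S)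
    (ha : ↑a.support ⊆ S) (hT : T ⊆ S) (e : (↑(mapDomain f a).support : Set U) ⊆ f '' T) :
    ↑a.support ⊆ T := by
  intro v hv
  rw [supp_map (h.mono ha)] at e
  obtain ⟨t, ht, e'⟩ := e ⟨v, hv, rfl⟩
  rwa [← h (hT ht) (ha hv) e']

/-- a set of at most four points injects into `Fin 4` -/
theorem exists_injOn {s : Finset V} (h : s.card ≤ 4) : ∃ p : V → Fin 4, InjOn p s := by
  classical
  obtain ⟨e⟩ : Nonempty (s ↪ Fin 4) :=
    Function.Embedding.nonempty_of_card_le (by simpa using h)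
  refine ⟨fun v => if hv : v ∈ s then e ⟨v, hv⟩ else 0, fun v hv w hw e' => ?_⟩
  have hv' : v ∈ s := hv
  have hw' : w ∈ s := hw
  simp only [hv', hw', dite_true] at e'
  exact congrArg Subtype.val (e.injective e')

/-! ### the block -/

/-- the code with the digits of `n` -/
noncomputable def dec (n : ℕ) : Fin 4 →₀ Fin 8 :=
  equivFunOnFinite.symm fun t => ⟨dg n t, Nat.mod_lt _ (by norm_num)⟩

theorem dec_apply (n : ℕ) (t : Fin 4) : ((dec n t : Fin 8) : ℕ) = dg n t := rfl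

theorem exists_dec (x : Fin 4 →₀ Fin 8) : ∃ n < 4096, dec n = x := by
  have h0 := (x 0).2
  have h1 := (x 1).2
  have h2 := (x 2).2
  have h3 := (x 3).2
  refine ⟨x 0 + 8 * x 1 + 64 * x 2 + 512 * x 3, by omega, ?_⟩
  ext t
  rw [dec_apply, dg, Nat.shiftRight_eq_div_pow]
  fin_cases t <;> simp <;> omega

theorem v0 : ((0 : Fin 4) : ℕ) = 0 := rfl
theorem v1 : ((1 : Fin 4) : ℕ) = 1 := rfl
theorem v2 : ((2 : Fin 4) : ℕ) = 2 := rfl
theorem v3 : ((3 : Fin 4) : ℕ) = 3 := rfl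

theorem sz_dec (n : ℕ) : sz (dec n) = s4 w0 (dg n) + s4 w1 (dg n) * φ := by
  rw [sz_eq (Finset.subset_univ _), Fin.sum_univ_four]
  simp only [wt, dec_apply, s4, v0, v1, v2, v3]
  push_cast
  ring

theorem dt_dec (n m : ℕ) : dt (dec n) (dec m) = d4 e0 (dg n) (dg m) + d4 e1 (dg n) (dg m) * φ := by
  rw [dt_eq _ (Finset.subset_univ _), Fin.sum_univ_four]
  simp only [wt_mul, dec_apply, d4, v0, v1, v2, v3]
  push_cast
  ring

theorem phi_indep {a b c d : ℕ} (h : (a : ℝ) + b * φ = c + d * φ) : a = c ∧ b = d := by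
  by_cases hb : b = d
  · subst hb
    exact ⟨by exact_mod_cast add_right_cancel h, rfl⟩
  · exfalso
    have hb' : (b : ℝ) - d ≠ 0 := sub_ne_zero.2 (by exact_mod_cast hb)
    refine Real.goldenRatio_irrational ⟨((c : ℚ) - a) / ((b : ℚ) - d), ?_⟩
    push_cast
    rw [div_eq_iff hb']
    linarith

theorem rel_iff (s0 s1 t0 t1 d0 d1 p q : ℕ) :
    rel s0 s1 t0 t1 d0 d1 p q = true ↔
      φ ^ 4 * (d0 + d1 * φ) + 4 * φ ^ 2 - φ * (s0 + s1 * φ) * (t0 + t1 * φ) - (s0 + s1 * φ) -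
        (t0 + t1 * φ) = p + q * φ := by
  have h2 := Real.goldenRatio_sq
  have key : φ ^ 4 * (d0 + d1 * φ) + 4 * φ ^ 2 - φ * (s0 + s1 * φ) * (t0 + t1 * φ) -
      (s0 + s1 * φ) - (t0 + t1 * φ) - (p + q * φ) =
      (((2 * d0 + 3 * d1 + 4 : ℕ) : ℝ) + (3 * d0 + 5 * d1 + 4 : ℕ) * φ) -
      ((s0 * t1 + s1 * t0 + s1 * t1 + s0 + t0 + p : ℕ) +
        (s0 * t0 + s1 * t1 + (s0 * t1 + s1 * t0 + s1 * t1) + s1 + t1 + q : ℕ) * φ) := by
    push_cast
    linear_combination (d0 : ℝ) * phi4 + (d1 : ℝ) * phi5 +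
      (4 - s0 * t1 - s1 * t0 - s1 * t1 * (φ + 1) : ℝ) * h2
  simp only [rel, Bool.and_eq_true, beq_iff_eq]
  constructor
  · rintro ⟨h1, h3⟩
    rw [← sub_eq_zero, key, h1, h3, sub_self]
  · intro h
    rw [← sub_eq_zero, key, sub_eq_zero] at h
    exact phi_indep h

theorem le_of_rle {s0 s1 t0 t1 d0 d1 : ℕ} (h : rle s0 s1 t0 t1 d0 d1 = true) :
    φ ^ 4 * (d0 + d1 * φ) + 4 * φ ^ 2 - φ * (s0 + s1 * φ) * (t0 + t1 * φ) - (s0 + s1 * φ) -
      (t0 + t1 * φ) ≤ φ ^ 5 := by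
  have h2 := Real.goldenRatio_sq
  have key : φ ^ 4 * (d0 + d1 * φ) + 4 * φ ^ 2 - φ * (s0 + s1 * φ) * (t0 + t1 * φ) -
      (s0 + s1 * φ) - (t0 + t1 * φ) - φ ^ 5 =
      (((2 * d0 + 3 * d1 + 4 : ℕ) : ℝ) - (s0 * t1 + s1 * t0 + s1 * t1 + s0 + t0 + 3 : ℕ)) +
      ((3 * d0 + 5 * d1 + 4 : ℕ) -
        (s0 * t0 + s1 * t1 + (s0 * t1 + s1 * t0 + s1 * t1) + s1 + t1 + 5 : ℕ)) * φ := by
    push_cast
    linear_combination (d0 : ℝ) * phi4 + (d1 - 1 : ℝ) * phi5 +
      (4 - s0 * t1 - s1 * t0 - s1 * t1 * (φ + 1) : ℝ) * h2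
  simp only [rle, Bool.and_eq_true, Nat.ble_eq] at h
  obtain ⟨h3, h4⟩ := h
  rw [← sub_nonpos, key]
  generalize 2 * d0 + 3 * d1 + 4 = A at *
  generalize 3 * d0 + 5 * d1 + 4 = C at *
  generalize s0 * t1 + s1 * t0 + s1 * t1 + s0 + t0 + 3 = B at *
  generalize s0 * t0 + s1 * t1 + (s0 * t1 + s1 * t0 + s1 * t1) + s1 + t1 + 5 = D at *
  have h3' : (5 * A + 8 * C : ℝ) ≤ 5 * B + 8 * D := by exact_mod_cast h3
  have h4' : (8 * A + 13 * C : ℝ) ≤ 8 * B + 13 * D := by exact_mod_cast h4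
  have h1 := Real.one_lt_goldenRatio
  have h5 : 8 / 5 < φ := by nlinarith
  have h6 : φ < 13 / 8 := by nlinarith
  rcases le_total (C : ℝ) D with h | h <;> nlinarith

theorem RR_dec_iff (n m p q : ℕ) :
    RR (dec n) (dec m) = p + q * φ ↔ rel4 (dg n) (dg m) p q = true := by
  rw [rel4, rel_iff, RR, sz_dec, sz_dec, dt_dec]

theorem vx_dec (n : ℕ) : Vx (dec n) ↔ rel4 (dg n) (dg n) 4 6 = true := by
  rw [← RR_dec_iff, Vx, phi4]
  push_cast
  constructor <;> intro h <;> linarith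

theorem ad_dec (n m : ℕ) : Ad (dec n) (dec m) ↔ rel4 (dg n) (dg m) 3 5 = true := by
  rw [← RR_dec_iff, Ad, phi5]
  push_cast
  constructor <;> intro h <;> linarith

/-- the `i`-th vertex of the block -/
noncomputable def vt (i : ℕ) : Fin 4 →₀ Fin 8 := dec (cd i)

theorem mem_R {i : ℕ} : i ∈ R ↔ i < 116 := List.mem_range

theorem exists_vt {x : Fin 4 →₀ Fin 8} (h : Vx x) : ∃ i ∈ R, vt i = x := by
  obtain ⟨n, hn, rfl⟩ := exists_dec x
  have := List.all_eq_true.1 chk0 n (List.mem_range.2 hn)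
  rw [(vx_dec n).1 h] at this
  simp only [Bool.not_true, Bool.false_or, List.any_eq_true, beq_iff_eq] at this
  obtain ⟨i, hi, rfl⟩ := this
  exact ⟨i, hi, rfl⟩

theorem vx_vt {i : ℕ} (hi : i ∈ R) : Vx (vt i) := by
  have := List.all_eq_true.1 chk1 i hi
  rw [Bool.and_eq_true] at this
  exact (vx_dec _).2 this.1

theorem ad_vt {i j : ℕ} (hi : i ∈ R) (hj : j ∈ R) : Ad (vt i) (vt j) ↔ ad i j = true := by
  have := List.all_eq_true.1 chk1 i hi
  rw [Bool.and_eq_true] at this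
  have := List.all_eq_true.1 this.2 j hj
  rw [Bool.and_eq_true, beq_iff_eq] at this
  rw [this.1]
  exact ad_dec _ _

theorem le_vt {i j : ℕ} (hi : i ∈ R) (hj : j ∈ R) (h : i ≠ j) : RR (vt i) (vt j) ≤ φ ^ 5 := by
  have := List.all_eq_true.1 chk1 i hi
  rw [Bool.and_eq_true] at this
  have := List.all_eq_true.1 this.2 j hj
  rw [Bool.and_eq_true, Bool.or_eq_true, beq_iff_eq, beq_iff_eq] at this
  have h2 := this.2.resolve_left h
  rw [vt, vt, RR, sz_dec, sz_dec, dt_dec]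
  exact le_of_rle h2

theorem dec_eq_zero {n : ℕ} {t : Fin 4} : dec n t = 0 ↔ dg n t = 0 := by
  rw [← dec_apply, Fin.ext_iff]
  rfl

theorem sb_iff {n m k : ℕ} (h : sb n m k = true) :
    (↑(dec n).support : Set (Fin 4)) ⊆ ↑(dec m).support ∪ ↑(dec k).support := by
  intro t ht
  have := List.all_eq_true.1 h t (List.mem_range.2 t.2)
  simp only [Finset.mem_coe, mem_support_iff, mem_union, ne_eq, dec_eq_zero] at ht ⊢
  simpa [ht] using this

theorem bd_iff {n m k : ℕ} (h : bd n m k = true) :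
    ∃ t, dec n t = 0 ∧ dec m t = 0 ∧ dec k t = 0 := by
  obtain ⟨t, ht, h⟩ := List.any_eq_true.1 h
  refine ⟨⟨t, List.mem_range.1 ht⟩, ?_⟩
  simpa [dec_eq_zero, and_assoc] using h

theorem ad_lt {i j : ℕ} (h : ad i j = true) : j ∈ R := by
  rw [mem_R]
  by_contra hj
  have : mk i < 2 ^ j :=
    (Nat.mod_lt _ (by positivity)).trans_le (Nat.pow_le_pow_right (by norm_num) (not_lt.1 hj))
  rw [ad, Nat.testBit_lt_two_pow this] at h
  exact Bool.false_ne_true h

theorem two_bits {m : ℕ} (h : m ≠ 2 ^ m.log2) {i : ℕ} (hi : m.testBit i = true) :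
    ∃ j, j ≠ i ∧ m.testBit j = true := by
  by_contra hc
  push Not at hc
  have : m = 2 ^ i := Nat.eq_of_testBit_eq fun j => by
    rw [Nat.testBit_two_pow]
    by_cases hj : i = j
    · simp [← hj, hi]
    · simpa [hj] using hc j (Ne.symm hj)
  rw [this, Nat.log2_two_pow] at h
  exact h rfl

theorem chk2' {a b : ℕ} (ha : a ∈ R) (hb : b ∈ R) (hab : ad a b = true) :
    (sb (cd a) (cd b) (cd b) = true ∨ sb (cd b) (cd a) (cd a) = true) ∧
    ∀ d ∈ R, ad a d = true →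
      (ad b d = true → bd (cd a) (cd b) (cd d) = true ∨
        (mk a &&& mk b &&& mk d) ≠ 2 ^ (mk a &&& mk b &&& mk d).log2) ∧
      (ad b d = false → b = d ∨ (sb (cd a) (cd b) (cd d) = true ∧
        (mk b &&& mk d) &&& (mk a ||| 2 ^ a) = mk b &&& mk d)) := by
  have := List.all_eq_true.1 (List.all_eq_true.1 chk2 a ha) b hb
  rw [hab, Bool.not_true, Bool.false_or, Bool.and_eq_true, Bool.or_eq_true] at this
  refine ⟨this.1, fun d hd had => ?_⟩
  have := List.all_eq_true.1 this.2 d hd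
  rw [had, Bool.not_true, Bool.false_or] at this
  constructor <;> intro h <;> rw [h] at this
  · simpa using this
  · simpa using this

theorem blk_le {a b : Fin 4 →₀ Fin 8} (ha : Vx a) (hb : Vx b) (h : a ≠ b) : RR a b ≤ φ ^ 5 := by
  obtain ⟨i, hi, rfl⟩ := exists_vt ha
  obtain ⟨j, hj, rfl⟩ := exists_vt hb
  exact le_vt hi hj fun e => h (e ▸ rfl)

theorem blk_nest {a b : Fin 4 →₀ Fin 8} (ha : Vx a) (hb : Vx b) (h : Ad a b) :
    (↑a.support : Set (Fin 4)) ⊆ ↑b.support ∨ (↑b.support : Set (Fin 4)) ⊆ ↑a.support := by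
  obtain ⟨i, hi, rfl⟩ := exists_vt ha
  obtain ⟨j, hj, rfl⟩ := exists_vt hb
  refine (chk2' hi hj ((ad_vt hi hj).1 h)).1.imp (fun h => ?_) fun h => ?_ <;>
    simpa [vt] using sb_iff h

theorem blk_C {a b d : Fin 4 →₀ Fin 8} (ha : Vx a) (hb : Vx b) (hd : Vx d) (hab : Ad a b)
    (had : Ad a d) (hbd : ¬ Ad b d) (hne : b ≠ d) :
    (↑a.support : Set (Fin 4)) ⊆ ↑b.support ∪ ↑d.support ∧
      ∀ c, Vx c → Ad b c → Ad d c → c ≠ a → Ad a c := by
  obtain ⟨i, hi, rfl⟩ := exists_vt ha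
  obtain ⟨j, hj, rfl⟩ := exists_vt hb
  obtain ⟨k, hk, rfl⟩ := exists_vt hd
  have h := (((chk2' hi hj ((ad_vt hi hj).1 hab)).2 k hk ((ad_vt hi hk).1 had)).2
    (by simpa [ad_vt hj hk] using hbd)).resolve_left fun e => hne (e ▸ rfl)
  refine ⟨sb_iff h.1, fun c hc h1 h2 h3 => ?_⟩
  obtain ⟨l, hl, rfl⟩ := exists_vt hc
  rw [ad_vt hj hl, ad] at h1
  rw [ad_vt hk hl, ad] at h2
  have h4 := congrArg (fun m => Nat.testBit m l) h.2
  simp only [Nat.testBit_and, Nat.testBit_or, h1, h2, Nat.testBit_two_pow, Bool.true_and,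
    Bool.or_eq_true, decide_eq_true_eq, Bool.and_self] at h4
  rw [ad_vt hi hl, ad]
  exact h4.resolve_right fun e => h3 (e ▸ rfl)

theorem blk_tri {a b d c : Fin 4 →₀ Fin 8} (ha : Vx a) (hb : Vx b) (hd : Vx d) (hc : Vx c)
    (hab : Ad a b) (had : Ad a d) (hbd : Ad b d) (hac : Ad a c) (hbc : Ad b c) (hdc : Ad d c) :
    (∃ t, a t = 0 ∧ b t = 0 ∧ d t = 0) ∨ ∃ e, Vx e ∧ e ≠ c ∧ Ad a e ∧ Ad b e ∧ Ad d e := by
  obtain ⟨i, hi, rfl⟩ := exists_vt ha
  obtain ⟨j, hj, rfl⟩ := exists_vt hb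
  obtain ⟨k, hk, rfl⟩ := exists_vt hd
  obtain ⟨l, hl, rfl⟩ := exists_vt hc
  refine (((chk2' hi hj ((ad_vt hi hj).1 hab)).2 k hk ((ad_vt hi hk).1 had)).1
    ((ad_vt hj hk).1 hbd)).imp bd_iff fun h => ?_
  rw [ad_vt hi hl, ad] at hac
  rw [ad_vt hj hl, ad] at hbc
  rw [ad_vt hk hl, ad] at hdc
  obtain ⟨e, hel, he⟩ := two_bits h (i := l) (by simp [Nat.testBit_and, hac, hbc, hdc])
  simp only [Nat.testBit_and, Bool.and_eq_true] at he
  have heR : e ∈ R := ad_lt he.2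
  refine ⟨vt e, vx_vt heR, fun h' => ?_, (ad_vt hi heR).2 he.1.1, (ad_vt hj heR).2 he.1.2,
    (ad_vt hk heR).2 he.2⟩
  have h1 := le_vt heR hl hel
  have h2 := vx_vt hl
  rw [h', Vx.eq_def] at *
  rw [h2, phi4, phi5] at h1
  linarith [Real.goldenRatio_pos]

theorem blk_cell : ∃ a : Fin 4 → Fin 4 →₀ Fin 8, (∀ i, Vx (a i)) ∧
    ∀ i j, i ≠ j → Ad (a i) (a j) := by
  have hR : ∀ i : Fin 4, ![0, 2, 6, 17] i ∈ R := by decide
  refine ⟨fun i => vt (![0, 2, 6, 17] i), fun i => vx_vt (hR i), fun i j h => ?_⟩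
  rw [ad_vt (hR i) (hR j)]
  revert i j
  decide +kernel

end Crest.Agent.N233.PS
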