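import Crest.Agent.N233.PS.Re

/-!
# Row 233, block PS (helper98): the homeomorphism `|X*| ≃ₜ |X|`

`Pb` is linear, preserves the sum of the coordinates, and restricts to homeomorphisms
`Cone X* ≃ₜ Cone X`, `Rl X* ≃ₜ Rl X` compatible with subcomplexes and simplicial maps.
-/

set_option autoImplicit false

open scoped goldenRatio Topology
open Finsupp Set Filter

namespace Crest.Agent.N233.PS

variable {V U : Type*} {X : Set V → Prop} {Y : Set U → Prop}

/-- locally finite complexes -/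
def LF (X : Set V → Prop) : Prop := ∀ v, {w | X {v, w}}.Finite

theorem lf_of_finite [Finite V] (X : Set V → Prop) : LF X := fun _ => toFinite _

theorem finite_car_sub {S : Set V} (hS : S.Finite) : {a : PV X | car a ⊆ S}.Finite := by
  have := hS.to_subtype
  refine Set.Finite.of_injOn (f := fun a (s : S) => a.1 s) (t := univ) (mapsTo_univ _ _)
    (fun a ha b hb e => PV.ext (Finsupp.ext fun v => ?_)) finite_univ
  by_cases hv : v ∈ S
  · exact congrFun e ⟨v, hv⟩
  · have h1 : a.1 v = 0 := by_contra fun h => hv (ha (mem_car.2 h))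
    have h2 : b.1 v = 0 := by_contra fun h => hv (hb (mem_car.2 h))
    rw [h1, h2]

theorem finite_mem_car (hX : Cx X) (hl : LF X) (v : V) : {a : PV X | v ∈ car a}.Finite :=
  (finite_car_sub (hl v)).subset fun a ha _ hw =>
    hX.down (insert_subset ha (singleton_subset_iff.2 hw)) (car_face a)

theorem lf_ps (hX : Cx X) (hl : LF X) : LF (ps X).IsClique := by
  intro a
  obtain ⟨v, hv⟩ := car_nonempty a
  refine (finite_car_sub (hl v)).subset fun b hb w hw => ?_
  by_cases e : a = b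
  · exact hX.down (insert_subset (e ▸ hv) (singleton_subset_iff.2 hw)) (car_face b)
  · exact hX.down (insert_subset (Or.inl hv) (singleton_subset_iff.2 (Or.inr hw)))
      (hb (by simp) (by simp) e).1

theorem finite_neighbor (hX : Cx X) (hl : LF X) (a : PV X) : ((ps X).neighborSet a).Finite :=
  (lf_ps hX hl a).subset fun _ hb => SimpleGraph.isClique_pair.2 fun _ => hb

theorem Ph_eq_sum (hX : Cx X) (hl : LF X) (μ : PV X → ℝ) (v : V) :
    Ph μ v = ∑ a ∈ (finite_mem_car hX hl v).toFinset, μ a * wt (a.1 v) := by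
  refine finsum_eq_sum_of_support_subset _ fun a ha => ?_
  have : a.1 v ≠ 0 := fun h => ha (by simp [h])
  simpa [mem_car] using this

theorem continuous_Ph (hX : Cx X) (hl : LF X) : Continuous (Ph : (PV X → ℝ) → V → ℝ) := by
  refine continuous_pi fun v => ?_
  simp only [Ph_eq_sum hX hl]
  fun_prop

theorem sz_pos (a : PV X) : 0 < sz a.1 := by
  obtain ⟨v, hv⟩ := car_nonempty a
  refine lt_of_lt_of_le (by linarith [one_le_wt (mem_car.1 hv)]) (Finset.single_le_sum
    (f := fun v => wt (a.1 v)) (fun _ _ => wt_nonneg _) (Finset.mem_coe.1 hv))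

/-- the barycentric coordinates of the vertex `a` -/
noncomputable def bar (a : PV X) (v : V) : ℝ := wt (a.1 v) / sz a.1

theorem bar_nonneg (a : PV X) (v : V) : 0 ≤ bar a v := div_nonneg (wt_nonneg _) (sz_pos a).le

theorem bar_ne_zero {a : PV X} {v : V} : bar a v ≠ 0 ↔ v ∈ car a := by
  simp [bar, (sz_pos a).ne', wt_eq_zero, mem_car]

theorem sum_bar {a : PV X} {K : Finset V} (h : car a ⊆ K) : ∑ v ∈ K, bar a v = 1 := by
  simp only [bar]
  rw [← Finset.sum_div, ← sz_eq (Finset.coe_subset.1 h), div_self (sz_pos a).ne']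

/-- the linear map sending the vertex `a` to its barycentric position -/
noncomputable def Pb (μ : PV X → ℝ) : V → ℝ := fun v => ∑ᶠ a, μ a * bar a v

theorem Pb_eq_Ph (μ : PV X → ℝ) : Pb μ = Ph fun a => μ a / sz a.1 := by
  funext v
  exact finsum_congr fun a => by rw [bar]; ring

theorem Pb_eq {μ : PV X → ℝ} {T : Finset (PV X)} (h : Function.support μ ⊆ T) (v : V) :
    Pb μ v = ∑ a ∈ T, μ a * bar a v :=
  finsum_eq_sum_of_support_subset _ ((Function.support_mul_subset_left _ _).trans h)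

theorem scale_mem {ι : Type*} {Z : Set ι → Prop} {μ r : ι → ℝ} (hr : ∀ a, 0 < r a)
    (hμ : μ ∈ Cone Z) : (fun a => μ a * r a) ∈ Cone Z := by
  refine ⟨fun a => mul_nonneg (hμ.1 a) (hr a).le, ?_⟩
  have : (Function.support fun a => μ a * r a) = Function.support μ := by
    ext a
    simp [(hr a).ne']
  rw [this]
  exact hμ.2

theorem div_mem {μ : PV X → ℝ} (hμ : μ ∈ Cone (ps X).IsClique) :
    (fun a => μ a / sz a.1) ∈ Cone (ps X).IsClique :=
  scale_mem (fun a => inv_pos.2 (sz_pos a)) hμ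

theorem Pb_bijOn (hX : Cx X) (h0 : X ∅) : BijOn Pb (Cone (ps X).IsClique) (Cone X) := by
  have h : BijOn (fun (μ : PV X → ℝ) a => μ a / sz a.1) (Cone (ps X).IsClique)
      (Cone (ps X).IsClique) := by
    refine ⟨fun μ => div_mem, fun μ _ ν _ e => funext fun a => ?_, fun μ hμ =>
      ⟨_, scale_mem sz_pos hμ, funext fun a => mul_div_cancel_right₀ _ (sz_pos a).ne'⟩⟩
    exact (div_left_inj' (sz_pos a).ne').1 (congrFun e a)
  rw [funext Pb_eq_Ph]
  exact (Ph_bijOn hX h0).comp h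

theorem Pb_ne_zero (hX : Cx X) {μ : PV X → ℝ} (hμ : μ ∈ Cone (ps X).IsClique) {v : V} :
    Pb μ v ≠ 0 ↔ ∃ a, μ a ≠ 0 ∧ v ∈ car a := by
  rw [Pb_eq_Ph, Ph_ne_zero hX (div_mem hμ)]
  simp [fun a : PV X => (sz_pos a).ne']

theorem Pb_support (hX : Cx X) {μ : PV X → ℝ} (hμ : μ ∈ Cone (ps X).IsClique) (h : μ ≠ 0) :
    ∃ a, μ a ≠ 0 ∧ Function.support (Pb μ) = car a := by
  obtain ⟨a, ha, hm⟩ := exists_top hX hμ.2 ((cx_ps hX).finite hμ.2)
    (Function.support_nonempty_iff.2 h)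
  refine ⟨a, ha, Set.ext fun v => ?_⟩
  rw [Function.mem_support, Pb_ne_zero hX hμ]
  exact ⟨fun ⟨b, hb, hv⟩ => hm b hb hv, fun hv => ⟨a, ha, hv⟩⟩

theorem Pb_zero : Pb (0 : PV X → ℝ) = 0 := by
  funext v
  simp [Pb]

/-- full subcomplexes correspond -/
theorem Pb_support_sub (hX : Cx X) {μ : PV X → ℝ} (hμ : μ ∈ Cone (ps X).IsClique) {A : Set V} :
    Function.support (Pb μ) ⊆ A ↔ Function.support μ ⊆ {a | car a ⊆ A} :=
  ⟨fun h a ha _ hv => h ((Pb_ne_zero hX hμ).2 ⟨a, ha, hv⟩), fun h _ hv =>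
    let ⟨_, ha, hv⟩ := (Pb_ne_zero hX hμ).1 hv
    h ha hv⟩

/-- arbitrary subcomplexes correspond -/
theorem Pb_face_iff (hX : Cx X) {μ : PV X → ℝ} (hμ : μ ∈ Cone (ps X).IsClique)
    {A : Set V → Prop} (down : ∀ {s t : Set V}, s ⊆ t → A t → A s) (h0 : A ∅) :
    A (Function.support (Pb μ)) ↔ Function.support μ ⊆ {a | A (car a)} := by
  refine ⟨fun h a ha => down (fun _ hv => (Pb_ne_zero hX hμ).2 ⟨a, ha, hv⟩) h, fun h => ?_⟩
  by_cases e : μ = 0
  · simpa [e, Pb_zero] using h0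
  · obtain ⟨a, ha, e⟩ := Pb_support hX hμ e
    rw [e]
    exact h ha

theorem Pb_smul (r : ℝ) (μ : PV X → ℝ) : Pb (r • μ) = r • Pb μ := by
  funext v
  simp only [Pb, Pi.smul_apply, smul_eq_mul, mul_assoc]
  exact (smul_finsum r fun a => μ a * bar a v).symm

theorem Pb_add (hX : Cx X) (hl : LF X) (μ ν : PV X → ℝ) : Pb (μ + ν) = Pb μ + Pb ν := by
  funext v
  simp only [Pb_eq_Ph, Pi.add_apply, Ph_eq_sum hX hl, add_div, add_mul, Finset.sum_add_distrib]

theorem Pb_single [DecidableEq (PV X)] (a : PV X) (r : ℝ) (v : V) :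
    Pb (Pi.single a r) v = r * bar a v := by
  rw [Pb_eq (T := {a}) (by simpa using Pi.support_single_subset)]
  simp

theorem finsum_Pb {μ : PV X → ℝ} (hf : (Function.support μ).Finite) :
    ∑ᶠ v, Pb μ v = ∑ᶠ a, μ a := by
  classical
  have h1 : Function.support μ ⊆ hf.toFinset := by simp
  have h2 : ∀ a ∈ hf.toFinset, car a ⊆ hf.toFinset.biUnion fun a => a.1.support :=
    fun a ha => Finset.coe_subset.2 (Finset.subset_biUnion_of_mem (fun a => a.1.support) ha)
  rw [finsum_eq_sum_of_support_subset _ h1,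
    finsum_eq_sum_of_support_subset (s := hf.toFinset.biUnion fun a => a.1.support)]
  · simp only [Pb_eq h1]
    rw [Finset.sum_comm]
    refine Finset.sum_congr rfl fun a ha => ?_
    rw [← Finset.mul_sum, sum_bar (h2 a ha), mul_one]
  · intro v hv
    rw [Function.mem_support, Pb_eq h1] at hv
    obtain ⟨a, ha, hv⟩ := Finset.exists_ne_zero_of_sum_ne_zero hv
    exact h2 a ha (bar_ne_zero.1 (right_ne_zero_of_mul hv))

theorem continuous_Pb (hX : Cx X) (hl : LF X) : Continuous (Pb : (PV X → ℝ) → V → ℝ) := by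
  rw [funext Pb_eq_Ph]
  exact (continuous_Ph hX hl).comp (by fun_prop)

/-- the inverse of `Pb` -/
noncomputable def Qb (X : Set V → Prop) : (V → ℝ) → PV X → ℝ :=
  Function.invFunOn Pb (Cone (ps X).IsClique)

theorem Qb_mem (hX : Cx X) (h0 : X ∅) {x : V → ℝ} (hx : x ∈ Cone X) :
    Qb X x ∈ Cone (ps X).IsClique := Function.invFunOn_mem ((Pb_bijOn hX h0).surjOn hx)

theorem Pb_Qb (hX : Cx X) (h0 : X ∅) {x : V → ℝ} (hx : x ∈ Cone X) : Pb (Qb X x) = x :=
  Function.invFunOn_eq ((Pb_bijOn hX h0).surjOn hx)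

theorem Qb_Pb (hX : Cx X) (h0 : X ∅) {μ : PV X → ℝ} (hμ : μ ∈ Cone (ps X).IsClique) :
    Qb X (Pb μ) = μ := (Pb_bijOn hX h0).injOn.leftInvOn_invFunOn hμ

theorem continuousOn_Qb (hX : Cx X) (h0 : X ∅) (hl : LF X) : ContinuousOn (Qb X) (Cone X) := by
  intro x hx
  rw [ContinuousWithinAt, tendsto_iff_ultrafilter]
  intro g hg
  have h1 : ∀ᶠ y in (g : Filter (V → ℝ)), y ∈ Cone X := hg self_mem_nhdsWithin
  have h2 : (g : Filter (V → ℝ)) ≤ 𝓝 x := hg.trans nhdsWithin_le_nhds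
  have h3 : ∀ a, ∃ m, Tendsto (fun y => Qb X y a) g (𝓝 m) := by
    intro a
    obtain ⟨v, hv⟩ := car_nonempty a
    have h4 : ∀ᶠ y in (g : Filter (V → ℝ)), y v < x v + 1 :=
      h2 ((continuous_apply v).continuousAt.eventually_lt continuousAt_const (lt_add_one _))
    obtain ⟨m, -, hm⟩ := (isCompact_Icc (a := (0 : ℝ)) (b := (x v + 1) * sz a.1)).ultrafilter_le_nhds
      (g.map fun y => Qb X y a) (by
        rw [Ultrafilter.coe_map, le_principal_iff, mem_map]
        filter_upwards [h1, h4] with y hy hy'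
        refine ⟨(Qb_mem hX h0 hy).1 a, ?_⟩
        have := le_Ph hX (div_mem (Qb_mem hX h0 hy)) hv
        rw [← Pb_eq_Ph, Pb_Qb hX h0 hy] at this
        exact (div_le_iff₀ (sz_pos a)).1 (this.trans hy'.le))
    exact ⟨m, hm⟩
  choose m hm using h3
  have h4 : Tendsto (Qb X) g (𝓝 m) := tendsto_pi_nhds.2 hm
  have h5 : m ∈ Cone (ps X).IsClique :=
    (cx_ps hX).isClosed_cone.mem_of_tendsto h4 (h1.mono fun y hy => Qb_mem hX h0 hy)
  have h6 : Pb m = x :=
    tendsto_nhds_unique (((continuous_Pb hX hl).tendsto m).comp h4)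
      (Tendsto.congr' (h1.mono fun y hy => (Pb_Qb hX h0 hy).symm) h2)
  rwa [← h6, Qb_Pb hX h0 h5]

/-- corresponding subsets of the two cones are homeomorphic -/
noncomputable def subHomeo (hX : Cx X) (h0 : X ∅) (hl : LF X) {A : Set (PV X → ℝ)}
    {B : Set (V → ℝ)} (hA : A ⊆ Cone (ps X).IsClique) (hB : B ⊆ Cone X)
    (h : ∀ μ ∈ Cone (ps X).IsClique, μ ∈ A ↔ Pb μ ∈ B) : A ≃ₜ B where
  toFun μ := ⟨Pb μ.1, (h _ (hA μ.2)).1 μ.2⟩
  invFun x := ⟨Qb X x.1, (h _ (Qb_mem hX h0 (hB x.2))).2 (by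
    rw [Pb_Qb hX h0 (hB x.2)]; exact x.2)⟩
  left_inv μ := Subtype.ext (Qb_Pb hX h0 (hA μ.2))
  right_inv x := Subtype.ext (Pb_Qb hX h0 (hB x.2))
  continuous_toFun := ((continuous_Pb hX hl).comp continuous_subtype_val).subtype_mk _
  continuous_invFun := ((continuousOn_Qb hX h0 hl).mono hB).domRestrict.subtype_mk _

/-- the cones over `X*` and `X` are homeomorphic by the linear map `Pb` -/
noncomputable def coneHomeo (hX : Cx X) (h0 : X ∅) (hl : LF X) :
    Cone (ps X).IsClique ≃ₜ Cone X :=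
  subHomeo hX h0 hl subset_rfl subset_rfl fun _ hμ =>
    ⟨fun _ => (Pb_bijOn hX h0).mapsTo hμ, fun _ => hμ⟩

theorem Pb_mem_Rl (hX : Cx X) (h0 : X ∅) {μ : PV X → ℝ} (hμ : μ ∈ Cone (ps X).IsClique) :
    μ ∈ Rl (ps X).IsClique ↔ Pb μ ∈ Rl X := by
  simp only [Rl, mem_ofPred_eq, hμ, (Pb_bijOn hX h0).mapsTo hμ, true_and,
    finsum_Pb ((cx_ps hX).finite hμ.2)]

/-- `|X*| ≃ₜ |X|` -/
noncomputable def rlHomeo (hX : Cx X) (h0 : X ∅) (hl : LF X) : Rl (ps X).IsClique ≃ₜ Rl X :=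
  subHomeo hX h0 hl (fun _ h => h.1) (fun _ h => h.1) fun _ hμ => Pb_mem_Rl hX h0 hμ

@[simp] theorem coe_coneHomeo (hX : Cx X) (h0 : X ∅) (hl : LF X) (μ : Cone (ps X).IsClique) :
    (coneHomeo hX h0 hl μ : V → ℝ) = Pb μ.1 := rfl

@[simp] theorem coe_rlHomeo (hX : Cx X) (h0 : X ∅) (hl : LF X) (μ : Rl (ps X).IsClique) :
    (rlHomeo hX h0 hl μ : V → ℝ) = Pb μ.1 := rfl

/-! ### naturality -/

theorem bar_pm {f : V → U} (hf : Nd X Y f) (a : PV X) {K : Set V} (hK : X K) (ha : car a ⊆ K)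
    {v : V} (hv : v ∈ K) : bar (pm hf a) (f v) = bar a v := by
  rw [bar, bar, pm_apply hf a hK ha hv]
  exact congrArg _ (sz_map (hf _ a.2.1).1)

theorem bar_pm_of_injective {f : V → U} (hf : Nd X Y f) (hi : Function.Injective f) (a : PV X)
    (v : V) : bar (pm hf a) (f v) = bar a v := by
  rw [bar, bar, show (pm hf a).1 (f v) = a.1 v from mapDomain_apply hi _ _]
  exact congrArg _ (sz_map (hf _ a.2.1).1)

/-- `Pb` commutes with isomorphisms of complexes -/
theorem Pb_iso (e : V ≃ U) (h : Nd X Y e) (h' : Nd Y X e.symm) (ν : PV Y → ℝ) :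
    Pb (ν ∘ pm h) = Pb ν ∘ e := by
  funext v
  rw [Function.comp_apply, Pb, Pb, ← finsum_comp_equiv (pmIso e h h').toEquiv]
  exact finsum_congr fun a => by
    rw [← bar_pm_of_injective h e.injective a v]
    rfl

/-- the linear extension of a vertex map -/
noncomputable def pf (f : V → U) (x : V → ℝ) : U → ℝ := fun u => ∑ᶠ (v) (_ : f v = u), x v

theorem pf_eq [DecidableEq U] (f : V → U) {x : V → ℝ} {K : Finset V} (h : Function.support x ⊆ K)
    (u : U) : pf f x u = ∑ v ∈ K, if f v = u then x v else 0 := by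
  rw [pf, finsum_eq_sum_of_support_subset (s := K)]
  · exact Finset.sum_congr rfl fun v _ => finsum_eq_if
  · exact fun v hv => h fun e => hv (by simp [e])

theorem pf_apply {f : V → U} {x : V → ℝ} {K : Set V} (hf : InjOn f K)
    (h : Function.support x ⊆ K) {v : V} (hv : v ∈ K) : pf f x (f v) = x v := by
  rw [pf, finsum_eq_single _ v fun w hw => ?_]
  · simp
  · by_cases hx : x w = 0
    · simp [hx]
    · have : f w ≠ f v := fun e => hw (hf (h hx) hv e)
      simp [this]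

theorem pf_support {f : V → U} {x : V → ℝ} (hf : InjOn f (Function.support x)) :
    Function.support (pf f x) = f '' Function.support x := by
  ext u
  refine ⟨fun hu => by_contra fun hn => hu (finsum_eq_zero_of_forall_eq_zero fun v => ?_), ?_⟩
  · by_cases hx : x v = 0
    · simp [hx]
    · have : f v ≠ u := fun e => hn ⟨v, hx, e⟩
      simp [this]
  · rintro ⟨v, hv, rfl⟩
    rwa [Function.mem_support, pf_apply hf subset_rfl hv]

theorem pf_mem {f : V → U} (hf : Nd X Y f) {x : V → ℝ} (hx : x ∈ Cone X) : pf f x ∈ Cone Y :=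
  ⟨fun _ => finsum_nonneg fun v => finsum_nonneg fun _ => hx.1 v, by
    rw [pf_support (hf _ hx.2).1]; exact (hf _ hx.2).2⟩

theorem nd_pm {f : V → U} (hf : Nd X Y f) : Nd (ps X).IsClique (ps Y).IsClique (pm hf) := by
  intro s hs
  refine ⟨fun a ha b hb e => by_contra fun hne => (pm_adj hf (hs ha hb hne)).ne e, ?_⟩
  rintro _ ⟨a, ha, rfl⟩ _ ⟨b, hb, rfl⟩ hne
  exact pm_adj hf (hs ha hb fun e => hne (congrArg _ e))

/-- `Pb` commutes with nondegenerate simplicial maps -/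
theorem Pb_pf (hX : Cx X) (h0 : X ∅) {f : V → U} (hf : Nd X Y f) {μ : PV X → ℝ}
    (hμ : μ ∈ Cone (ps X).IsClique) : Pb (pf (pm hf) μ) = pf f (Pb μ) := by
  classical
  have hT := (cx_ps hX).finite hμ.2
  have h1 : Function.support μ ⊆ hT.toFinset := by simp
  have hi : InjOn (pm hf) hT.toFinset := by simpa using (nd_pm hf _ hμ.2).1
  have hK := ((Pb_bijOn hX h0).mapsTo hμ).2
  have hc : ∀ a ∈ hT.toFinset, car a ⊆ Function.support (Pb μ) := fun a ha v hv =>
    (Pb_ne_zero hX hμ).2 ⟨a, by simpa using ha, hv⟩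
  have h2 : ∀ u, Pb (pf (pm hf) μ) u = ∑ a ∈ hT.toFinset, μ a * bar (pm hf a) u := by
    intro u
    rw [Pb_eq (T := hT.toFinset.image (pm hf)) (by rw [pf_support (hi.mono h1)]; simp),
      Finset.sum_image hi]
    exact Finset.sum_congr rfl fun a ha => by rw [pf_apply hi h1 ha]
  funext u
  rw [h2]
  by_cases hu : u ∈ f '' Function.support (Pb μ)
  · obtain ⟨v, hv, rfl⟩ := hu
    rw [pf_apply (hf _ hK).1 subset_rfl hv, Pb_eq h1]
    exact Finset.sum_congr rfl fun a ha => by rw [bar_pm hf a hK (hc a ha) hv]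
  · rw [← pf_support (hf _ hK).1, Function.notMem_support] at hu
    rw [hu]
    refine Finset.sum_eq_zero fun a ha => mul_eq_zero_of_right _ (by_contra fun h => ?_)
    have := bar_ne_zero.1 h
    rw [car_pm] at this
    have h3 := image_mono (hc a ha) this
    rw [← pf_support (hf _ hK).1] at h3
    exact h3 hu

end Crest.Agent.N233.PS
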