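import Crest.Agent.N233.PS.Gr

/-!
# Row 233, block PS (helper98): the subdivision is rectilinear

`Cone X` is the cone over the complex `X` (product topology), `Rl X` its geometric realisation.
The linear map `Pb` sends the vertex `a` of `X*` to the point `pos a / sz a` of its carrier; it is a
bijection `Cone X* → Cone X`, and a homeomorphism if `X` is locally finite.
-/

set_option autoImplicit false

open scoped goldenRatio Topology
open Finsupp Set Filter

namespace Crest.Agent.N233.PS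

variable {V U : Type*}

/-- the cone over the complex -/
def Cone (X : Set V → Prop) : Set (V → ℝ) := {x | (∀ v, 0 ≤ x v) ∧ X (Function.support x)}

/-- the geometric realisation -/
def Rl (X : Set V → Prop) : Set (V → ℝ) := {x | x ∈ Cone X ∧ ∑ᶠ v, x v = 1}

variable {X : Set V → Prop}

theorem Cx.isClosed_cone (hX : Cx X) : IsClosed (Cone X) := by
  refine isClosed_iff_clusterPt.2 fun x hx => ?_
  have hx' : x ∈ closure (Cone X) := mem_closure_iff_clusterPt.2 hx
  have key : ∀ σ : Finset V, ↑σ ⊆ Function.support x → X σ := by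
    intro σ hσ
    have : ∀ᶠ y in 𝓝 x, ∀ v ∈ σ, y v ≠ 0 :=
      (eventually_all_finset σ).2 fun v hv =>
        (continuous_apply v).continuousAt.eventually_ne (hσ hv)
    obtain ⟨y, hy, hy'⟩ := mem_closure_iff_nhds.1 hx' _ this
    exact hX.down (fun v hv => hy v hv) hy'.2
  refine ⟨fun v => ?_, ?_⟩
  · exact closure_minimal (fun y (hy : y ∈ Cone X) => hy.1 v)
      (isClosed_le continuous_const (continuous_apply v)) hx'
  · have hf : (Function.support x).Finite := by
      by_contra hf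
      obtain ⟨t, ht, hc⟩ := Set.Infinite.exists_subset_card_eq hf 5
      obtain ⟨p, hp⟩ := hX.dim (key t ht)
      have := Finset.card_le_card_of_injOn p (t := Finset.univ) (fun _ _ => by simp) hp
      simp [hc] at this
    simpa using key hf.toFinset (by simp)

/-- the linear map sending the vertex `a` to `pos a` -/
noncomputable def Ph (μ : PV X → ℝ) : V → ℝ := fun v => ∑ᶠ a, μ a * wt (a.1 v)

theorem Ph_eq {μ : PV X → ℝ} {T : Finset (PV X)} (h : Function.support μ ⊆ T) :
    Ph μ = ∑ a ∈ T, μ a • pos a.1 := by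
  funext v
  rw [Ph, finsum_eq_sum_of_support_subset _ ((Function.support_mul_subset_left _ _).trans h),
    Finset.sum_apply]
  rfl

theorem Ph_ne_zero (hX : Cx X) {μ : PV X → ℝ} (hμ : μ ∈ Cone (ps X).IsClique) {v : V} :
    Ph μ v ≠ 0 ↔ ∃ a, μ a ≠ 0 ∧ v ∈ car a := by
  have hf := (cx_ps hX).finite hμ.2
  rw [Ph_eq (T := hf.toFinset) (by simp), Finset.sum_apply, ne_eq,
    Finset.sum_eq_zero_iff_of_nonneg (f := fun a => (μ a • pos a.1) v)
      fun a _ => mul_nonneg (hμ.1 a) (wt_nonneg _)]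
  simp [pos, wt_eq_zero, mem_car]

theorem Ph_nonneg {μ : PV X → ℝ} (hμ : ∀ a, 0 ≤ μ a) (v : V) : 0 ≤ Ph μ v :=
  finsum_nonneg fun a => mul_nonneg (hμ a) (wt_nonneg _)

/-- the support of the image is the carrier of the top vertex -/
theorem Ph_support (hX : Cx X) {μ : PV X → ℝ} (hμ : μ ∈ Cone (ps X).IsClique) (h : μ ≠ 0) :
    ∃ a, μ a ≠ 0 ∧ Function.support (Ph μ) = car a := by
  obtain ⟨a, ha, hm⟩ := exists_top hX hμ.2 ((cx_ps hX).finite hμ.2)
    (Function.support_nonempty_iff.2 h)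
  refine ⟨a, ha, Set.ext fun v => ?_⟩
  rw [Function.mem_support, Ph_ne_zero hX hμ]
  exact ⟨fun ⟨b, hb, hv⟩ => hm b hb hv, fun hv => ⟨a, ha, hv⟩⟩

theorem Ph_zero : Ph (0 : PV X → ℝ) = 0 := by
  funext v
  simp [Ph]

theorem Ph_mem (hX : Cx X) (h0 : X ∅) {μ : PV X → ℝ} (hμ : μ ∈ Cone (ps X).IsClique) :
    Ph μ ∈ Cone X := by
  refine ⟨Ph_nonneg hμ.1, ?_⟩
  by_cases h : μ = 0
  · simpa [h, Ph_zero] using h0
  · obtain ⟨a, -, e⟩ := Ph_support hX hμ h
    rw [e]
    exact car_face a

theorem le_Ph (hX : Cx X) {μ : PV X → ℝ} (hμ : μ ∈ Cone (ps X).IsClique) {a : PV X} {v : V}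
    (hv : v ∈ car a) : μ a ≤ Ph μ v := by
  classical
  have hf := (cx_ps hX).finite hμ.2
  rw [Ph_eq (T := insert a hf.toFinset) (by simp), Finset.sum_apply]
  refine le_trans ?_ (Finset.single_le_sum (f := fun b => (μ b • pos b.1) v)
    (fun b _ => mul_nonneg (hμ.1 b) (wt_nonneg _)) (Finset.mem_insert_self _ _))
  exact le_mul_of_one_le_right (hμ.1 a) (one_le_wt (mem_car.1 hv))

theorem Ph_le_aux (hX : Cx X) {μ ν : PV X → ℝ} (hμ : μ ∈ Cone (ps X).IsClique)
    (hν : ν ∈ Cone (ps X).IsClique) (e : Ph μ = Ph ν) {T : Finset (PV X)}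
    (h1 : Function.support μ ⊆ T) (h2 : Function.support ν ⊆ T)
    (hs : ∑ a ∈ T, ν a ≤ ∑ a ∈ T, μ a) (a : PV X) : μ a ≤ ν a := by
  classical
  by_cases ha : μ a = 0
  · rw [ha]
    exact hν.1 a
  obtain ⟨b, -, hb⟩ := Ph_support hX hμ fun h => ha (congrFun h a)
  obtain ⟨p, hp⟩ := hX.dim (car_face b)
  have hm : ∀ c, μ c ≠ 0 → car c ⊆ car b := fun c hc v hv =>
    hb ▸ (Ph_ne_zero hX hμ).2 ⟨c, hc, hv⟩
  have hn : ∀ c, ν c ≠ 0 → car c ⊆ car b := fun c hc v hv =>
    hb ▸ e ▸ (Ph_ne_zero hX hν).2 ⟨c, hc, hv⟩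
  have e1 : el b.1.support a.1 (Ph μ) =
      ∑ c ∈ T, (ht a.1 * μ c + if c = a then (φ + 1) * μ a else 0) := by
    rw [Ph_eq h1, map_sum]
    refine Finset.sum_congr rfl fun c _ => ?_
    by_cases hc : μ c = 0
    · have : c ≠ a := fun h => ha (h ▸ hc)
      simp [hc, this]
    rw [map_smul, el_pos (Finset.coe_subset.1 (hm a ha)) (Finset.coe_subset.1 (hm c hc)),
      smul_eq_mul]
    split_ifs with h
    · rw [h, a.2.2.RR_sub]
      ring
    · rw [(hμ.2 ha hc (Ne.symm h)).2.RR_sub]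
      ring
  have e2 : el b.1.support a.1 (Ph ν) ≤
      ∑ c ∈ T, (ht a.1 * ν c + if c = a then (φ + 1) * ν a else 0) := by
    rw [Ph_eq h2, map_sum]
    refine Finset.sum_le_sum fun c _ => ?_
    by_cases hc : ν c = 0
    · by_cases h : c = a
      · simp [← h, hc]
      · simp [hc, h]
    rw [map_smul, el_pos (Finset.coe_subset.1 (hm a ha)) (Finset.coe_subset.1 (hn c hc)),
      smul_eq_mul]
    split_ifs with h
    · rw [h, a.2.2.RR_sub]
      exact le_of_eq (by ring)
    · have := loc_le hp (hm a ha) (hn c hc) a.2.2 c.2.2 fun e => h (PV.ext e.symm)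
      have h3 := hν.1 c
      nlinarith
  have haT : a ∈ T := h1 ha
  rw [← e, e1] at e2
  simp only [Finset.sum_add_distrib, ← Finset.mul_sum, Finset.sum_ite_eq', haT, if_true] at e2
  have h3 := ht_pos a.1
  have h4 := Real.goldenRatio_pos
  by_contra hlt
  nlinarith [mul_le_mul_of_nonneg_left hs h3.le]

theorem Ph_injOn (hX : Cx X) : InjOn Ph (Cone (ps X).IsClique) := by
  intro μ hμ ν hν e
  have hf := ((cx_ps hX).finite hμ.2).union ((cx_ps hX).finite hν.2)
  have h1 : Function.support μ ⊆ hf.toFinset := by simp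
  have h2 : Function.support ν ⊆ hf.toFinset := by simp
  funext a
  rcases le_total (∑ a ∈ hf.toFinset, ν a) (∑ a ∈ hf.toFinset, μ a) with h | h
  · have h3 := Ph_le_aux hX hμ hν e h1 h2 h
    exact le_antisymm (h3 a)
      (Ph_le_aux hX hν hμ e.symm h2 h1 (Finset.sum_le_sum fun a _ => h3 a) a)
  · have h3 := Ph_le_aux hX hν hμ e.symm h2 h1 h
    exact le_antisymm
      (Ph_le_aux hX hμ hν e h1 h2 (Finset.sum_le_sum fun a _ => h3 a) a) (h3 a)

/-- the cells of the block -/
abbrev Cell : Type :=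
  {a : Fin 4 → Fin 4 →₀ Fin 8 // (∀ i, Vx (a i)) ∧ ∀ i j, i ≠ j → Ad (a i) (a j)}

theorem Cell.span (a : Cell) (x : Fin 4 → ℝ) : ∃ c : Fin 4 → ℝ, ∑ j, c j • pos (a.1 j) = x := by
  have := (indep a.2.1 a.2.2).span_eq_top_of_card_eq_finrank' (by simp)
  rw [← Submodule.mem_span_range_iff_exists_fun, this]
  trivial

/-- the cells of the block cover the tetrahedron -/
theorem blk_surj {x : Fin 4 → ℝ} (hx : ∀ t, 0 ≤ x t) :
    ∃ (a : Cell) (c : Fin 4 → ℝ), (∀ j, 0 ≤ c j) ∧ ∑ j, c j • pos (a.1 j) = x := by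
  have : Nonempty Cell := ⟨⟨_, blk_cell.choose_spec⟩⟩
  choose c hc using fun a : Cell => a.span x
  obtain ⟨a, ha⟩ := Finite.exists_max fun a : Cell => ∑ j, c a j
  refine ⟨a, c a, fun j => ?_, hc a⟩
  by_contra hj
  rw [not_le] at hj
  have hne : ∀ z z' : Fin 3, z ≠ z' → Ad (a.1 (j.succAbove z)) (a.1 (j.succAbove z')) :=
    fun z z' h => a.2.2 _ _ fun e => h (Fin.succAbove_right_injective e)
  have hj' : ∀ z : Fin 3, Ad (a.1 (j.succAbove z)) (a.1 j) :=
    fun z => a.2.2 _ _ (Fin.succAbove_ne j z)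
  have hall : ∀ P : Fin 4 → Prop, P (j.succAbove 0) ∧ P (j.succAbove 1) ∧ P (j.succAbove 2) →
      ∀ i, i ≠ j → P i := by
    intro P h i hi
    obtain ⟨z, rfl⟩ := Fin.exists_succAbove_eq hi
    fin_cases z
    exacts [h.1, h.2.1, h.2.2]
  rcases blk_tri (a.2.1 _) (a.2.1 _) (a.2.1 _) (a.2.1 j) (hne 0 1 (by decide))
    (hne 0 2 (by decide)) (hne 1 2 (by decide)) (hj' 0) (hj' 1) (hj' 2) with
    ⟨t, ht⟩ | ⟨e, ve, hej, he⟩
  · have h1 := hall (fun i => a.1 i t = 0) ht
    have h2 : ∀ d : Fin 4 → ℝ, (∑ i, d i • pos (a.1 i)) t = d j * wt (a.1 j t) := by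
      intro d
      rw [Finset.sum_apply, Finset.sum_eq_single j (fun i _ hi => by simp [pos, h1 i hi])
        (by simp)]
      rfl
    have h3 := h2 (c a)
    rw [hc a] at h3
    obtain ⟨d, hd⟩ := a.span 1
    have h4 := h2 d
    rw [hd] at h4
    have h5 : wt (a.1 j t) = 0 := by nlinarith [hx t, wt_nonneg (a.1 j t)]
    simp [h5] at h4
  · have h1 := hall (fun i => Ad (a.1 i) e) he
    let a' : Cell := ⟨Function.update a.1 j e, fun i => by
      by_cases h : i = j
      · simpa [h] using ve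
      · simpa [h] using a.2.1 i, fun i k hik => by
      by_cases h : i = j
      · have h' : k ≠ j := fun e => hik (h.trans e.symm)
        simpa [h, h'] using (h1 k h').symm
      · by_cases h' : k = j
        · simpa [h, h'] using h1 i h
        · simpa [h, h'] using a.2.2 i k hik⟩
    have hs := ha a'
    have hκ : 0 < φ + 1 := by linarith [Real.goldenRatio_pos]
    have h2 : ∀ i, i ≠ j → c a i ≤ c a' i := by
      intro i hi
      have e1 := el_comb (fun _ => Finset.subset_univ _) a.2.1 a.2.2 (c a) i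
      have e2 := el_comb (fun _ => Finset.subset_univ _) a'.2.1 a'.2.2 (c a') i
      have e3 : a'.1 i = a.1 i := Function.update_of_ne hi _ _
      rw [hc] at e1 e2
      rw [e3, e1] at e2
      by_contra hlt
      nlinarith [mul_le_mul_of_nonneg_left hs (ht_pos (a.1 i)).le]
    have h3 : c a' j < 0 := by
      have := Finset.sum_le_sum (s := Finset.univ.erase j) fun i hi =>
        h2 i (Finset.ne_of_mem_erase hi)
      rw [Finset.sum_erase_eq_sub (Finset.mem_univ j),
        Finset.sum_erase_eq_sub (Finset.mem_univ j)] at this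
      linarith
    have e2 := el_comb (fun _ => Finset.subset_univ _) a'.2.1 a'.2.2 (c a') j
    have e3 : a'.1 j = e := Function.update_self _ _ _
    rw [hc, e3, ← hc a, map_sum] at e2
    have e4 : ∑ i, ht e * c a i ≤ ∑ i, el Finset.univ e (c a i • pos (a.1 i)) := by
      refine Finset.sum_le_sum fun i _ => ?_
      rw [map_smul, el_pos (Finset.subset_univ _) (Finset.subset_univ _), smul_eq_mul]
      by_cases hi : i = j
      · have := blk_le ve (a.2.1 j) hej
        rw [hi]
        nlinarith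
      · rw [(h1 i hi).symm.RR_sub]
        exact le_of_eq (by ring)
    rw [e2, ← Finset.mul_sum] at e4
    nlinarith [mul_le_mul_of_nonneg_left hs (ht_pos e).le]

theorem Ph_surjOn (hX : Cx X) : SurjOn Ph (Cone (ps X).IsClique) (Cone X) := by
  classical
  intro x hx
  obtain ⟨p, hp⟩ := hX.dim hx.2
  have hf := hX.finite hx.2
  obtain ⟨a, c, hc, e⟩ := blk_surj (x := fun t => ∑ v ∈ hf.toFinset, if p v = t then x v else 0)
    fun t => Finset.sum_nonneg fun v _ => by split_ifs; exacts [hx.1 v, le_rfl]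
  have h1 : ∀ j, c j ≠ 0 → ↑(a.1 j).support ⊆ p '' Function.support x := by
    intro j hj t ht
    by_contra hn
    have h2 := congrFun e t
    rw [Finset.sum_eq_zero (s := hf.toFinset) fun v hv => if_neg fun h =>
      hn ⟨v, by simpa using hv, h⟩, Finset.sum_apply,
      Finset.sum_eq_zero_iff_of_nonneg (f := fun i => (c i • pos (a.1 i)) t)
        fun i _ => mul_nonneg (hc i) (wt_nonneg _)] at h2
    simpa [pos, hj, wt_eq_zero, mem_support_iff.1 ht] using h2 j (Finset.mem_univ j)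
  choose b hb hb' using fun j : {j // c j ≠ 0} => exists_map hp (h1 j j.2)
  let B : {j // c j ≠ 0} → PV X := fun j =>
    ⟨b j, hX.down (hb j) hx.2, (vx_map (hp.mono (hb j))).1 (hb' j ▸ a.2.1 j)⟩
  have hs : Function.support (fun d : PV X => ∑ j, if B j = d then c j else 0) ⊆
      Finset.univ.image B := by
    intro d hd
    obtain ⟨j, -, hj⟩ := Finset.exists_ne_zero_of_sum_ne_zero hd
    simp only [Finset.coe_image, Finset.coe_univ, image_univ]
    exact ⟨j, by_contra fun h => hj (if_neg h)⟩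
  refine ⟨fun d => ∑ j, if B j = d then c j else 0, ⟨fun d => Finset.sum_nonneg fun j _ => by
    split_ifs; exacts [hc j, le_rfl], fun d hd d' hd' hne => ?_⟩, ?_⟩
  · obtain ⟨j, -, rfl⟩ := Finset.mem_image.1 (hs hd)
    obtain ⟨k, -, rfl⟩ := Finset.mem_image.1 (hs hd')
    refine adj_of_ad hX hx.2 (hb j) (hb k) ((ad_map hp (hb j) (hb k)).1 ?_)
    rw [hb', hb']
    exact a.2.2 _ _ fun e => hne (congrArg B (Subtype.ext e))
  · rw [Ph_eq hs]
    funext v
    have h2 : (∑ d ∈ Finset.univ.image B, (∑ j, if B j = d then c j else 0) • pos d.1) v =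
        ∑ j : {j // c j ≠ 0}, c j * wt (b j v) := by
      simp only [Finset.sum_apply, Pi.smul_apply, smul_eq_mul, Finset.sum_mul, ite_mul, zero_mul]
      rw [Finset.sum_comm]
      refine Finset.sum_congr rfl fun j _ => ?_
      rw [Finset.sum_ite_eq, if_pos (Finset.mem_image_of_mem _ (Finset.mem_univ j))]
      rfl
    rw [h2]
    by_cases hv : x v = 0
    · rw [hv]
      refine Finset.sum_eq_zero fun j _ => ?_
      have : b j v = 0 := by_contra fun h => hb j (mem_support_iff.2 h) hv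
      simp [this]
    · have h3 := congrFun e (p v)
      rw [Finset.sum_eq_single v (fun w hw hwv => if_neg fun h =>
        hwv (hp (by simpa using hw) hv h)) (fun h => absurd (by simpa using hv) h), if_pos rfl,
        Finset.sum_apply] at h3
      rw [← h3, ← Finset.sum_filter_of_ne (p := fun j => c j ≠ 0) (fun j _ h h' => h (by simp [h'])),
        Finset.sum_subtype (p := fun j => c j ≠ 0) _ (by simp)]
      refine Finset.sum_congr rfl fun j _ => ?_
      rw [← hb' j]
      simp only [Pi.smul_apply, smul_eq_mul, pos]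
      rw [mapDomain_apply' _ _ (hb j) hp hv]

theorem Ph_bijOn (hX : Cx X) (h0 : X ∅) : BijOn Ph (Cone (ps X).IsClique) (Cone X) :=
  ⟨fun _ => Ph_mem hX h0, Ph_injOn hX, Ph_surjOn hX⟩

end Crest.Agent.N233.PS
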